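import Mathlib.Analysis.Calculus.ImplicitContDiff
import Mathlib.Data.Finset.Sort
import Mathlib.Topology.LocallyConstant.Basic
import Mathlib.Topology.Connected.LocallyConnected
import Mathlib.Topology.DiscreteSubset

/-! The zero set of a function with simple zeros in the last variable is a stack of graphs. -/

open Set Filter Topology

namespace Vale.Agent.P218UG

variable {P : Type*} [NormedAddCommGroup P] [NormedSpace ℝ P] [CompleteSpace P]
variable {n : WithTop ℕ∞} {f : P × ℝ → ℝ}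

/-- the implicit function theorem for one equation and one unknown -/
lemma exists_implicit (hn : n ≠ 0) {p : P} {s : ℝ} (hf : ContDiffAt ℝ n f (p, s))
    (h0 : f (p, s) = 0) (hd : fderiv ℝ f (p, s) (0, 1) ≠ 0) :
    ∃ φ : P → ℝ, ContDiffAt ℝ n φ p ∧ φ p = s ∧
      ∀ᶠ v in 𝓝 (p, s), f v = 0 ↔ φ v.1 = v.2 := by
  have hinv : (fderiv ℝ f (p, s) ∘L ContinuousLinearMap.inr ℝ P ℝ).IsInvertible := by
    refine ⟨(ContinuousLinearEquiv.unitsEquivAut ℝ) (Units.mk0 _ hd), ?_⟩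
    ext
    simp
  refine ⟨hf.implicitFunction hn hinv, hf.contDiffAt_implicitFunction hn hinv,
    hf.implicitFunction_apply_self hn hinv, ?_⟩
  have := hf.eventually_apply_eq_iff_implicitFunction hn hinv
  rwa [h0] at this

/-- local form -/
lemma exists_stack_local (hn : n ≠ 0) {p : P} {a b : ℝ}
    (hf : ∀ s ∈ Icc a b, ContDiffAt ℝ n f (p, s)) (ha : f (p, a) ≠ 0) (hb : f (p, b) ≠ 0)
    (hd : ∀ s ∈ Icc a b, f (p, s) = 0 → fderiv ℝ f (p, s) (0, 1) ≠ 0) :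
    ∃ (m : ℕ) (φ : Fin m → P → ℝ), (∀ j, ContDiffAt ℝ n (φ j) p) ∧
      ∀ᶠ q in 𝓝 p, StrictMono (fun j => φ j q) ∧
        ∀ s, (s ∈ Icc a b ∧ f (q, s) = 0) ↔ ∃ j, φ j q = s := by
  classical
  have h1 : ∀ s, ∃ φ : P → ℝ, (s ∈ Icc a b ∧ f (p, s) = 0) → ContDiffAt ℝ n φ p ∧ φ p = s ∧
      ∀ᶠ v in 𝓝 (p, s), f v = 0 ↔ φ v.1 = v.2 := by
    intro s
    by_cases h : s ∈ Icc a b ∧ f (p, s) = 0
    · obtain ⟨φ, hφ⟩ := exists_implicit hn (hf s h.1) h.2 (hd s h.1 h.2)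
      exact ⟨φ, fun _ => hφ⟩
    · exact ⟨fun _ => 0, fun h' => absurd h' h⟩
  choose ψ hψ using h1
  -- near every point of the segment, all zeros lie on the graph through that point
  have h2 : ∀ s ∈ Icc a b, ∀ᶠ v in 𝓝 (p, s), f v = 0 → f (p, s) = 0 ∧ ψ s v.1 = v.2 := by
    intro s hs
    by_cases h : f (p, s) = 0
    · filter_upwards [(hψ s ⟨hs, h⟩).2.2] with v hv h0 using ⟨h, hv.1 h0⟩
    · filter_upwards [(hf s hs).continuousAt.eventually_ne h] with v hv h0 using absurd h0 hv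
  have h3 : ∀ s ∈ Icc a b, ∃ V ∈ 𝓝 p, ∃ I ∈ 𝓝 s,
      ∀ q ∈ V, ∀ t ∈ I, f (q, t) = 0 → f (p, s) = 0 ∧ ψ s q = t := by
    intro s hs
    obtain ⟨V, hV, I, hI, h⟩ := mem_nhds_prod_iff.1 (h2 s hs)
    exact ⟨V, hV, I, hI, fun q hq t ht => h (mk_mem_prod hq ht)⟩
  choose! V hV I hI hVI using h3
  obtain ⟨T, hT, hcov⟩ := isCompact_Icc.elim_nhds_subcover I hI
  set Z := T.filter fun s => f (p, s) = 0 with hZ
  have hZ' : ∀ s ∈ Z, s ∈ Icc a b ∧ f (p, s) = 0 := fun s hs =>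
    ⟨hT s (Finset.mem_filter.1 hs).1, (Finset.mem_filter.1 hs).2⟩
  set e := Z.orderEmbOfFin rfl with he
  have heZ : ∀ j, e j ∈ Z := fun j => Z.orderEmbOfFin_mem rfl j
  refine ⟨Z.card, fun j => ψ (e j), fun j => (hψ _ (hZ' _ (heZ j))).1, ?_⟩
  have hc : ∀ j, Tendsto (ψ (e j)) (𝓝 p) (𝓝 (e j)) := fun j => by
    have := (hψ _ (hZ' _ (heZ j))).1.continuousAt.tendsto
    rwa [(hψ _ (hZ' _ (heZ j))).2.1] at this
  have k1 : ∀ᶠ q in 𝓝 p, ∀ i j, i < j → ψ (e i) q < ψ (e j) q := by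
    simp only [eventually_all]
    intro i j hij
    exact (hc i).eventually_lt (hc j) (e.strictMono hij)
  have k2 : ∀ᶠ q in 𝓝 p, ∀ j, ψ (e j) q ∈ Icc a b ∧ f (q, ψ (e j) q) = 0 := by
    rw [eventually_all]
    intro j
    obtain ⟨hs, h0⟩ := hZ' _ (heZ j)
    have a1 : a < e j := lt_of_le_of_ne hs.1 fun h => ha (by rw [h]; exact h0)
    have a2 : e j < b := lt_of_le_of_ne hs.2 fun h => hb (by rw [← h]; exact h0)
    have a3 : Tendsto (fun q => (q, ψ (e j) q)) (𝓝 p) (𝓝 (p, e j)) :=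
      tendsto_id.prodMk_nhds (hc j)
    filter_upwards [(hc j).eventually (Icc_mem_nhds a1 a2), a3.eventually (hψ _ ⟨hs, h0⟩).2.2]
      with q h1 h2 using ⟨h1, h2.2 rfl⟩
  have k3 : ∀ᶠ q in 𝓝 p, ∀ s ∈ T, q ∈ V s :=
    (eventually_all_finset T).2 fun s hs => hV s (hT s hs)
  filter_upwards [k1, k2, k3] with q h1 h2 h3
  refine ⟨fun i j hij => h1 i j hij, fun t => ⟨fun ht => ?_, ?_⟩⟩
  · obtain ⟨s, hs, hts⟩ := mem_iUnion₂.1 (hcov ht.1)
    obtain ⟨h4, h5⟩ := hVI s (hT s hs) q (h3 s hs) t hts ht.2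
    have h6 : s ∈ range e := by
      rw [he, Finset.range_orderEmbOfFin]
      exact Finset.mem_filter.2 ⟨hs, h4⟩
    obtain ⟨j, rfl⟩ := h6
    exact ⟨j, h5⟩
  · rintro ⟨j, rfl⟩
    exact h2 j

/-- two increasing enumerations of the same set -/
lemma card_eq_of_range {m m' : ℕ} {u : Fin m → ℝ} {u' : Fin m' → ℝ} (hu : StrictMono u)
    (hu' : StrictMono u') (h : ∀ s, (∃ j, u j = s) ↔ ∃ j, u' j = s) : m = m' := by
  have e : range u = range u' := by ext s; exact h s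
  have h1 := ncard_range_of_injective hu.injective
  have h2 := ncard_range_of_injective hu'.injective
  rw [e, h2] at h1
  simpa using h1.symm

lemma eq_of_range {m : ℕ} {u u' : Fin m → ℝ} (hu : StrictMono u)
    (hu' : StrictMono u') (h : ∀ s, (∃ j, u j = s) ↔ ∃ j, u' j = s) : u = u' := by
  have e : range u = range u' := by ext s; exact h s
  exact (hu.range_inj hu').1 e

/-- **stack of graphs** -/
theorem exists_stack (hn : n ≠ 0) {U : Set P} (hU : IsOpen U) (hUc : IsPreconnected U) {a b : ℝ}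
    (hf : ∀ p ∈ U, ∀ s ∈ Icc a b, ContDiffAt ℝ n f (p, s)) (ha : ∀ p ∈ U, f (p, a) ≠ 0)
    (hb : ∀ p ∈ U, f (p, b) ≠ 0)
    (hd : ∀ p ∈ U, ∀ s ∈ Icc a b, f (p, s) = 0 → fderiv ℝ f (p, s) (0, 1) ≠ 0) :
    ∃ (m : ℕ) (u : Fin m → P → ℝ), (∀ j, ∀ p ∈ U, ContDiffAt ℝ n (u j) p) ∧
      ∀ p ∈ U, StrictMono (fun j => u j p) ∧
        ∀ s, (s ∈ Icc a b ∧ f (p, s) = 0) ↔ ∃ j, u j p = s := by
  rcases U.eq_empty_or_nonempty with rfl | ⟨p₀, hp₀⟩
  · exact ⟨0, fun j => j.elim0, fun j => j.elim0, fun p hp => hp.elim⟩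
  have h1 := fun p (hp : p ∈ U) => exists_stack_local hn (hf p hp) (ha p hp) (hb p hp) (hd p hp)
  choose! m φ hφ hev using h1
  have h2 : ∀ p ∈ U, ∀ᶠ q in 𝓝 p, m q = m p := by
    intro p hp
    filter_upwards [hev p hp, hU.mem_nhds hp] with q h hq
    have h' := (hev q hq).self_of_nhds
    exact card_eq_of_range h'.1 h.1 fun s => (h'.2 s).symm.trans (h.2 s)
  have h3 : ∀ p ∈ U, m p = m p₀ := by
    intro p hp
    refine hUc.constant (f := m) (fun q hq => ?_) hp hp₀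
    exact (tendsto_const_nhds.congr' (EventuallyEq.symm (h2 q hq))).mono_left nhdsWithin_le_nhds
  have h4 : ∀ p ∈ U, ∃ ψ : Fin (m p₀) → P → ℝ, (∀ j, ContDiffAt ℝ n (ψ j) p) ∧
      ∀ᶠ q in 𝓝 p, StrictMono (fun j => ψ j q) ∧
        ∀ s, (s ∈ Icc a b ∧ f (q, s) = 0) ↔ ∃ j, ψ j q = s := by
    intro p hp
    have e := h3 p hp
    have k1 := hφ p hp
    have k2 := hev p hp
    generalize φ p = χ at k1 k2
    generalize m p = k at e χ k1 k2
    subst e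
    exact ⟨χ, k1, k2⟩
  choose! ψ hψ hev' using h4
  refine ⟨m p₀, fun j q => ψ q j q, fun j p hp => ?_, fun p hp => (hev' p hp).self_of_nhds⟩
  refine (hψ p hp j).congr_of_eventuallyEq ?_
  filter_upwards [hev' p hp, hU.mem_nhds hp] with q h hq
  have h' := (hev' q hq).self_of_nhds
  exact congrFun (eq_of_range h'.1 h.1 fun s => (h'.2 s).symm.trans (h.2 s)) j

end Vale.Agent.P218UG
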