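import Vale.Agent.P218UG.Stack
import Vale.Agent.P218GA.Chart
import Mathlib.Analysis.Calculus.MeanValue

/-! A level set with bounded Hessian contains a graph of definite size through each point. -/

open Set Filter Topology Metric
open scoped RealInnerProductSpace

namespace Vale.Agent.P218UG

open P218GA

set_option linter.unusedSectionVars false

variable {E : Type*} [NormedAddCommGroup E] [InnerProductSpace ℝ E] [FiniteDimensional ℝ E]
variable {k : WithTop ℕ∞} {w : E → ℝ} {x n : E} {u : hyp n → ℝ}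

/-- the point of the graph of `u` over the plane through `x` orthogonal to `n` -/
noncomputable def gr (x n : E) (u : hyp n → ℝ) (η : hyp n) : E := x + (η : E) + u η • n

lemma hasFDerivAt_gr {η : hyp n} (hu : DifferentiableAt ℝ u η) :
    HasFDerivAt (gr x n u) ((hyp n).subtypeL + (fderiv ℝ u η).smulRight n) η :=
  ((hyp n).subtypeL.hasFDerivAt.const_add x).add (hu.hasFDerivAt.smul_const n)

lemma contDiffAt_gr {η : hyp n} (hu : ContDiffAt ℝ k u η) : ContDiffAt ℝ k (gr x n u) η :=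
  (contDiffAt_const.add (hyp n).subtypeL.contDiff.contDiffAt).add (hu.smul contDiffAt_const)

lemma inner_gr (hn : ‖n‖ = 1) (η : hyp n) : ⟪n, gr x n u η - x⟫ = u η := by
  rw [gr, add_assoc, add_sub_cancel_left, inner_add_right, inner_hyp, real_inner_smul_right,
    real_inner_self_eq_norm_sq, hn]
  ring

lemma crd_gr (hn : ‖n‖ = 1) (η : hyp n) : crd n (gr x n u η - x) = (u η, η) := by
  rw [← crd_spl hn (u η, η), spl_apply, gr]
  congr 1
  abel

lemma injective_gr (hn : ‖n‖ = 1) : Function.Injective (gr x n u) := fun η η' h => by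
  have h1 := crd_gr (x := x) (u := u) hn η
  rw [h, crd_gr hn] at h1
  exact (congrArg Prod.snd h1).symm

lemma norm_gr_sub_le (hn : ‖n‖ = 1) (η η' : hyp n) :
    ‖gr x n u η - gr x n u η'‖ ≤ ‖η - η'‖ + |u η - u η'| := by
  have e : gr x n u η - gr x n u η' = ((η - η' : hyp n) : E) + (u η - u η') • n := by
    rw [gr, gr, sub_smul, Submodule.coe_sub]; abel
  rw [e]
  refine (norm_add_le _ _).trans ?_
  rw [norm_smul, hn, mul_one, Real.norm_eq_abs]
  rfl

lemma gr_zero (h : u 0 = 0) : gr x n u 0 = x := by simp [gr, h]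

/-- the slope of a graph in the level set -/
lemma slope_eq {η : hyp n} (hw : DifferentiableAt ℝ w (gr x n u η)) (hu : DifferentiableAt ℝ u η)
    (h0 : ∀ᶠ ζ in 𝓝 η, w (gr x n u ζ) = 0) (v : hyp n) :
    ⟪gradient w (gr x n u η), (v : E)⟫ + fderiv ℝ u η v * ⟪gradient w (gr x n u η), n⟫ = 0 := by
  have h1 := hw.hasFDerivAt.comp η (hasFDerivAt_gr hu)
  have h2 : HasFDerivAt (w ∘ gr x n u) (0 : hyp n →L[ℝ] ℝ) η :=
    (hasFDerivAt_const 0 η).congr_of_eventuallyEq h0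
  have h3 := congrArg (fun L : hyp n →L[ℝ] ℝ => L v) (h1.unique h2)
  simpa [inner_grad] using h3

lemma slope_le (hn : ‖n‖ = 1) {η : hyp n} (hw : DifferentiableAt ℝ w (gr x n u η))
    (hu : DifferentiableAt ℝ u η) (h0 : ∀ᶠ ζ in 𝓝 η, w (gr x n u ζ) = 0) {τ : ℝ}
    (hτ : ‖gradient w (gr x n u η) - n‖ ≤ τ) (hτ' : τ ≤ 1 / 4) : ‖fderiv ℝ u η‖ ≤ 4 / 3 * τ := by
  have hτ0 : 0 ≤ τ := (norm_nonneg _).trans hτ
  refine ContinuousLinearMap.opNorm_le_bound _ (by positivity) fun v => ?_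
  have h1 := slope_eq hw hu h0 v
  obtain ⟨g, hg⟩ : ∃ g, g = gradient w (gr x n u η) := ⟨_, rfl⟩
  rw [← hg] at h1 hτ
  have h2 : |⟪g, (v : E)⟫| ≤ τ * ‖v‖ := by
    have e : ⟪g, (v : E)⟫ = ⟪g - n, (v : E)⟫ := by rw [inner_sub_left, inner_hyp, sub_zero]
    rw [e]
    refine (abs_real_inner_le_norm _ _).trans ?_
    exact mul_le_mul_of_nonneg_right hτ (norm_nonneg _)
  have h3 : 3 / 4 ≤ ⟪g, n⟫ := by
    have e : ⟪g, n⟫ = ⟪g - n, n⟫ + 1 := by
      rw [inner_sub_left, real_inner_self_eq_norm_sq, hn]; ring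
    have := abs_real_inner_le_norm (g - n) n
    rw [hn] at this
    have := neg_abs_le ⟪g - n, n⟫
    linarith
  have h4 : |fderiv ℝ u η v| * ⟪g, n⟫ ≤ τ * ‖v‖ := by
    rw [← abs_of_pos (by linarith : 0 < ⟪g, n⟫), ← abs_mul,
      show fderiv ℝ u η v * ⟪g, n⟫ = -⟪g, (v : E)⟫ by linarith, abs_neg]
    exact h2
  rw [Real.norm_eq_abs]
  nlinarith [abs_nonneg (fderiv ℝ u η v)]

lemma contDiff_grad (hw : ContDiff ℝ 2 w) : ContDiff ℝ 1 (gradient w) :=
  (InnerProductSpace.toDual ℝ E).symm.contDiff.comp (hw.fderiv_right (by norm_num))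

/-- estimates along a ray, as long as the tilt stays below `1/4` -/
lemma ray_est (hw : ContDiff ℝ 2 w) (hn : ‖n‖ = 1) {a r R : ℝ} (hu0 : u 0 = 0)
    (ha : ∀ y, w y = 0 → ‖y - x‖ ≤ r → ‖fderiv ℝ (gradient w) y‖ ≤ a)
    (hu : ∀ η : hyp n, ‖η‖ < R → DifferentiableAt ℝ u η ∧ w (gr x n u η) = 0)
    {η : hyp n} (hη : ‖η‖ < R) {t : ℝ} (ht : t ∈ Icc (0 : ℝ) 1)
    (h : ∀ s ∈ Icc 0 t, ‖gradient w (gr x n u (s • η)) - n‖ ≤ 1 / 4 ∧
      ‖gr x n u (s • η) - x‖ ≤ r) :
    ‖gradient w (gr x n u (t • η)) - gradient w x‖ ≤ 4 / 3 * a * ‖η‖ * t ∧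
      ‖gr x n u (t • η) - x‖ ≤ 4 / 3 * ‖η‖ * t := by
  have hs : ∀ s ∈ Icc 0 t, ‖s • η‖ < R := fun s hs => by
    rw [norm_smul, Real.norm_eq_abs, abs_of_nonneg hs.1]
    nlinarith [norm_nonneg η, hs.2.trans ht.2, hs.1]
  have hO : IsOpen {ζ : hyp n | ‖ζ‖ < R} := isOpen_lt continuous_norm continuous_const
  have hD : ∀ s ∈ Icc 0 t, HasDerivAt (fun s : ℝ => gr x n u (s • η))
      ((η : E) + fderiv ℝ u (s • η) η • n) s := fun s hs' => by
    have h1 : HasDerivAt (fun s : ℝ => s • η) η s := by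
      simpa using (hasDerivAt_id s).smul_const η
    exact (hasFDerivAt_gr (x := x) (hu _ (hs s hs')).1).comp_hasDerivAt s h1
  have hB : ∀ s ∈ Icc 0 t, ‖(η : E) + fderiv ℝ u (s • η) η • n‖ ≤ 4 / 3 * ‖η‖ := fun s hs' => by
    have h1 := slope_le hn ((hw.differentiable (by norm_num)) _) (hu _ (hs s hs')).1
      (by filter_upwards [hO.mem_nhds (hs s hs')] with ζ hζ using (hu ζ hζ).2) (h s hs').1 le_rfl
    have h2 := (fderiv ℝ u (s • η)).le_of_opNorm_le h1 η
    refine (norm_add_le _ _).trans ?_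
    rw [norm_smul, hn, ← Submodule.coe_norm]
    linarith
  have e0 : gr x n u ((0 : ℝ) • η) = x := by rw [zero_smul, gr_zero hu0]
  constructor
  · have h1 := norm_image_sub_le_of_norm_deriv_le_segment'
      (f := fun s : ℝ => gradient w (gr x n u (s • η))) (C := 4 / 3 * a * ‖η‖) (a := 0) (b := t)
      (fun s hs' => ((((contDiff_grad hw).differentiable (by norm_num)) _).hasFDerivAt.comp_hasDerivAt
        s (hD s hs')).hasDerivWithinAt) (fun s hs' => by
        have hs'' := Ico_subset_Icc_self hs'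
        have h1 := ha _ (hu _ (hs s hs'')).2 (h s hs'').2
        refine ((fderiv ℝ (gradient w) _).le_of_opNorm_le h1 _).trans ?_
        have := mul_le_mul_of_nonneg_left (hB s hs'') ((norm_nonneg _).trans h1)
        linarith) t (right_mem_Icc.2 ht.1)
    simpa only [e0, sub_zero] using h1
  · have h1 := norm_image_sub_le_of_norm_deriv_le_segment'
      (f := fun s : ℝ => gr x n u (s • η)) (C := 4 / 3 * ‖η‖) (a := 0) (b := t)
      (fun s hs' => (hD s hs').hasDerivWithinAt) (fun s hs' => hB s (Ico_subset_Icc_self hs'))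
      t (right_mem_Icc.2 ht.1)
    simpa only [e0, sub_zero] using h1

/-- a priori estimates for a graph in the level set -/
lemma apriori (hw : ContDiff ℝ 2 w) (hn : ‖n‖ = 1) {a r R θ : ℝ} (hu0 : u 0 = 0)
    (hθ : ‖gradient w x - n‖ ≤ θ)
    (ha : ∀ y, w y = 0 → ‖y - x‖ ≤ r → ‖fderiv ℝ (gradient w) y‖ ≤ a)
    (hθ' : θ + 4 / 3 * a * R ≤ 1 / 5) (hr : 4 / 3 * R ≤ r)
    (hu : ∀ η : hyp n, ‖η‖ < R → DifferentiableAt ℝ u η ∧ w (gr x n u η) = 0)
    {η : hyp n} (hη : ‖η‖ < R) :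
    ‖gradient w (gr x n u η) - gradient w x‖ ≤ 4 / 3 * a * ‖η‖ ∧
      ‖gr x n u η - x‖ ≤ 4 / 3 * ‖η‖ := by
  have hR : 0 < R := (norm_nonneg _).trans_lt hη
  have hx0 : w x = 0 := by
    have := (hu 0 (by simpa using hR)).2
    rwa [gr_zero hu0] at this
  have ha0 : 0 ≤ a := (norm_nonneg _).trans (ha x hx0 (by simp; linarith))
  have hs : ∀ s ∈ Icc (0 : ℝ) 1, ‖s • η‖ < R := fun s hs => by
    rw [norm_smul, Real.norm_eq_abs, abs_of_nonneg hs.1]
    nlinarith [norm_nonneg η, hs.2, hs.1]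
  have hc : ∀ s ∈ Icc (0 : ℝ) 1, ContinuousAt (fun s : ℝ => gr x n u (s • η)) s := fun s hs' =>
    ContinuousAt.comp (f := fun s : ℝ => s • η) (hasFDerivAt_gr (hu _ (hs s hs')).1).continuousAt
      (by fun_prop)
  have hg : Continuous (gradient w) := (contDiff_grad hw).continuous
  have c1 : ∀ s ∈ Icc (0 : ℝ) 1,
      ContinuousAt (fun s : ℝ => ‖gradient w (gr x n u (s • η)) - n‖) s := fun s hs' =>
    ((hg.continuousAt.comp (hc s hs')).sub continuousAt_const).norm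
  have c2 : ∀ s ∈ Icc (0 : ℝ) 1, ContinuousAt (fun s : ℝ => ‖gr x n u (s • η) - x‖) s :=
    fun s hs' => ((hc s hs').sub continuousAt_const).norm
  have key : Icc (0 : ℝ) 1 ⊆ {s | ‖gradient w (gr x n u (s • η)) - n‖ ≤ 1 / 4 ∧
      ‖gr x n u (s • η) - x‖ ≤ r} := by
    refine IsClosed.Icc_subset_of_forall_mem_nhdsGT_of_Icc_subset ?_ ?_ fun t ht h => ?_
    · rw [inter_comm, ofPred_and, inter_inter_distrib_left]
      exact (isClosed_Icc.isClosed_le (fun s hs' => (c1 s hs').continuousWithinAt)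
        continuousOn_const).inter (isClosed_Icc.isClosed_le
          (fun s hs' => (c2 s hs').continuousWithinAt) continuousOn_const)
    · have : 0 ≤ 4 / 3 * a * R := by positivity
      simp only [mem_ofPred_eq, zero_smul, gr_zero hu0, sub_self, norm_zero]
      constructor <;> linarith
    · have ht' := Ico_subset_Icc_self ht
      obtain ⟨h1, h2⟩ := ray_est hw hn hu0 ha hu hη ht' h
      have h3 : ‖η‖ * t < R := by nlinarith [norm_nonneg η, ht.1, ht.2]
      have h4 := norm_sub_le_norm_sub_add_norm_sub (gradient w (gr x n u (t • η)))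
        (gradient w x) n
      have h5 : a * (‖η‖ * t) ≤ a * R := mul_le_mul_of_nonneg_left h3.le ha0
      refine mem_nhdsWithin_of_mem_nhds ?_
      filter_upwards [(c1 t ht').eventually (gt_mem_nhds (by linarith : _ < (1 : ℝ) / 4)),
        (c2 t ht').eventually (gt_mem_nhds (by linarith : _ < r))] with s a1 a2
      exact ⟨a1.le, a2.le⟩
  simpa using ray_est hw hn hu0 ha hu hη (t := 1) (by simp) key

/-- one step of the continuation -/
lemma disc_step (hk : k ≠ 0) (hw : ContDiff ℝ k w) (hn : ‖n‖ = 1) {δ R : ℝ} (hδ : 0 < δ)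
    (hR : 0 < R) (hx : w x = 0) (hu0 : u 0 = 0) (hu : ∀ η : hyp n, ‖η‖ < R → ContDiffAt ℝ k u η)
    (hy : ∀ η : hyp n, ‖η‖ < R → ∃ y₀, w y₀ = 0 ∧ ‖gr x n u η - y₀‖ ≤ δ ∧
      ∀ y, ‖y - y₀‖ ≤ 5 * δ → ‖gradient w y - n‖ ≤ 3 / 10) :
    ∃ v : hyp n → ℝ, v 0 = 0 ∧ ∀ η : hyp n, ‖η‖ < R →
      ContDiffAt ℝ k v η ∧ w (gr x n v η) = 0 := by
  have hw1 : Differentiable ℝ w := hw.differentiable hk
  obtain ⟨f, hf⟩ : ∃ f : hyp n × ℝ → ℝ, f = fun z => w (gr x n u z.1 + z.2 • n) := ⟨_, rfl⟩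
  have hnn : ⟪n, n⟫ = 1 := by rw [real_inner_self_eq_norm_sq, hn]; norm_num
  have hnear : ∀ η : hyp n, ∀ y₀ s, ‖gr x n u η - y₀‖ ≤ δ → |s| ≤ 4 * δ →
      ‖gr x n u η + s • n - y₀‖ ≤ 5 * δ := fun η y₀ s h1 h2 => by
    rw [add_sub_right_comm]
    refine (norm_add_le _ _).trans ?_
    rw [norm_smul, hn, Real.norm_eq_abs]
    linarith
  have hval : ∀ η : hyp n, ‖η‖ < R → ∀ s, |s| = 4 * δ → f (η, s) ≠ 0 := by
    intro η hη s hs h0
    obtain ⟨y₀, h1, h2, h3⟩ := hy η hη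
    have h4 := (convex_closedBall y₀ (5 * δ)).norm_image_sub_le_of_norm_fderiv_le'
      (f := w) (φ := innerSL ℝ n) (C := 3 / 10) (fun y _ => hw1 y) (fun y hy' => by
        refine ContinuousLinearMap.opNorm_le_bound _ (by norm_num) fun v => ?_
        rw [sub_apply, ← inner_grad, innerSL_apply_apply, ← inner_sub_left]
        refine (norm_inner_le_norm _ _).trans ?_
        exact mul_le_mul_of_nonneg_right (h3 y (mem_closedBall_iff_norm.1 hy')) (norm_nonneg _))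
      (mem_closedBall_self (by positivity)) (mem_closedBall_iff_norm.2 (hnear η y₀ s h2 hs.le))
    have h5 := hnear η y₀ s h2 hs.le
    rw [hf] at h0
    simp only at h0
    rw [h0, h1, innerSL_apply_apply, add_sub_right_comm, inner_add_right, real_inner_smul_right,
      hnn, sub_zero, zero_sub, norm_neg, Real.norm_eq_abs, mul_one] at h4
    rw [add_sub_right_comm] at h5
    have h6 := abs_real_inner_le_norm n (gr x n u η - y₀)
    rw [hn] at h6
    have h7 := abs_add_le (⟪n, gr x n u η - y₀⟫ + s) (-⟪n, gr x n u η - y₀⟫)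
    rw [abs_neg, show ⟪n, gr x n u η - y₀⟫ + s + -⟪n, gr x n u η - y₀⟫ = s by ring] at h7
    linarith
  have hin : ∀ η : hyp n, ‖η‖ < R → ∀ s,
      ContDiffAt ℝ k (fun z : hyp n × ℝ => gr x n u z.1 + z.2 • n) (η, s) := fun η hη s =>
    (ContDiffAt.comp (η, s) (g := gr x n u) (contDiffAt_gr (hu η hη)) contDiffAt_fst).add
      (contDiffAt_snd.smul contDiffAt_const)
  have hcd : ∀ η : hyp n, ‖η‖ < R → ∀ s, ContDiffAt ℝ k f (η, s) := fun η hη s => by
    rw [hf]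
    exact hw.contDiffAt.comp (η, s) (hin η hη s)
  obtain ⟨m, v, h1, h2⟩ := exists_stack (f := f) hk (U := ball (0 : hyp n) R) isOpen_ball
    (convex_ball _ _).isPreconnected (a := -(4 * δ)) (b := 4 * δ)
    (fun η hη s _ => hcd η (mem_ball_zero_iff.1 hη) s)
    (fun η hη => hval η (mem_ball_zero_iff.1 hη) _ (by rw [abs_neg, abs_of_pos (by positivity)]))
    (fun η hη => hval η (mem_ball_zero_iff.1 hη) _ (abs_of_pos (by positivity)))
    (fun η hη s hs _ => by
      have hη' := mem_ball_zero_iff.1 hη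
      obtain ⟨y₀, -, a2, a3⟩ := hy η hη'
      have a4 := a3 _ (hnear η y₀ s a2 (abs_le.2 hs))
      have a5 : HasDerivAt (fun t : ℝ => f (η, t)) (fderiv ℝ f (η, s) (0, 1)) s :=
        ((hcd η hη' s).differentiableAt hk).hasFDerivAt.comp_hasDerivAt s
          ((hasDerivAt_const s η).prodMk (hasDerivAt_id s))
      have a6 : HasDerivAt (fun t : ℝ => f (η, t)) (fderiv ℝ w (gr x n u η + s • n) n) s := by
        rw [hf]
        have : HasDerivAt (fun t : ℝ => gr x n u η + t • n) n s := by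
          simpa using ((hasDerivAt_id s).smul_const n).const_add (gr x n u η)
        exact (hw1 _).hasFDerivAt.comp_hasDerivAt s this
      rw [a5.unique a6, ← inner_grad]
      have a7 := abs_real_inner_le_norm (gradient w (gr x n u η + s • n) - n) n
      rw [hn, inner_sub_left, hnn] at a7
      intro a8
      rw [a8] at a7
      norm_num at a7
      linarith)
  obtain ⟨j, hj⟩ := ((h2 0 (mem_ball_self hR)).2 0).1
    ⟨⟨by linarith, by linarith⟩, by simp [hf, gr_zero hu0, hx]⟩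
  refine ⟨fun η => u η + v j η, by simp [hu0, hj], fun η hη => ⟨(hu η hη).add
    (h1 j η (mem_ball_zero_iff.2 hη)), ?_⟩⟩
  have := (((h2 η (mem_ball_zero_iff.2 hη)).2 (v j η)).2 ⟨j, rfl⟩).2
  rw [hf] at this
  simpa only [gr, add_smul, add_assoc] using this

/-- **disc lemma** -/
theorem exists_disc (hk : 2 ≤ k) (hw : ContDiff ℝ k w) (hn : ‖n‖ = 1) (hx : w x = 0)
    {a r R θ : ℝ} (hθ : ‖gradient w x - n‖ ≤ θ)
    (ha : ∀ y, w y = 0 → ‖y - x‖ ≤ r → ‖fderiv ℝ (gradient w) y‖ ≤ a)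
    (hθ' : θ + 4 / 3 * a * R ≤ 1 / 5) (hr : 4 / 3 * R ≤ r) :
    ∃ u : hyp n → ℝ, u 0 = 0 ∧ ∀ η : hyp n, ‖η‖ < R → ContDiffAt ℝ k u η ∧ w (gr x n u η) = 0 ∧
      ‖gradient w (gr x n u η) - gradient w x‖ ≤ 4 / 3 * a * ‖η‖ ∧
      ‖gr x n u η - x‖ ≤ 4 / 3 * ‖η‖ ∧ ‖fderiv ℝ u η‖ ≤ 4 / 3 * (θ + 4 / 3 * a * ‖η‖) := by
  rcases le_or_gt R 0 with hR | hR
  · exact ⟨fun _ => 0, rfl, fun η hη => absurd (hη.trans_le hR) (norm_nonneg _).not_gt⟩
  have hk0 : k ≠ 0 := by rintro rfl; simp at hk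
  have hw2 : ContDiff ℝ 2 w := hw.of_le hk
  have ha0 : 0 ≤ a := (norm_nonneg _).trans (ha x hx (by simp; linarith))
  have hθ0 : 0 ≤ θ := (norm_nonneg _).trans hθ
  have est : ∀ R' ≤ R, ∀ u : hyp n → ℝ, u 0 = 0 →
      (∀ η : hyp n, ‖η‖ < R' → ContDiffAt ℝ k u η ∧ w (gr x n u η) = 0) → ∀ η : hyp n, ‖η‖ < R' →
      ‖gradient w (gr x n u η) - gradient w x‖ ≤ 4 / 3 * a * ‖η‖ ∧
        ‖gr x n u η - x‖ ≤ 4 / 3 * ‖η‖ ∧
        ‖gradient w (gr x n u η) - n‖ ≤ θ + 4 / 3 * a * ‖η‖ := fun R' hR' u hu0 hu η hη => by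
    have h1 : a * R' ≤ a * R := mul_le_mul_of_nonneg_left hR' ha0
    obtain ⟨h2, h3⟩ := apriori hw2 hn hu0 hθ ha (R := R') (by linarith) (by linarith)
      (fun η hη => ⟨(hu η hη).1.differentiableAt hk0, (hu η hη).2⟩) hη
    have h4 := norm_sub_le_norm_sub_add_norm_sub (gradient w (gr x n u η)) (gradient w x) n
    exact ⟨h2, h3, by linarith⟩
  obtain ⟨δ₀, hδ₀, hunif⟩ : ∃ δ₀ > 0, ∀ y₀, ‖y₀ - x‖ ≤ r → ∀ y, ‖y - y₀‖ < δ₀ →
      ‖gradient w y - gradient w y₀‖ < 1 / 10 := by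
    have h1 := (isCompact_closedBall x (r + 1)).uniformContinuousOn_of_continuous
      (contDiff_grad hw2).continuous.continuousOn
    obtain ⟨δ, hδ, h2⟩ := Metric.uniformContinuousOn_iff.1 h1 (1 / 10) (by norm_num)
    refine ⟨min δ 1, by positivity, fun y₀ h3 y h4 => ?_⟩
    have h5 := norm_sub_le_norm_sub_add_norm_sub y y₀ x
    have h6 := min_le_right δ 1
    rw [← dist_eq_norm]
    exact h2 y (mem_closedBall_iff_norm.2 (by linarith)) y₀
      (mem_closedBall_iff_norm.2 (by linarith)) (by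
        rw [dist_eq_norm]; exact h4.trans_le (min_le_left _ _))
  obtain ⟨M, hM⟩ := exists_nat_gt (5 * R / δ₀)
  obtain ⟨δ, hδ⟩ : ∃ δ : ℝ, δ = R / (M + 1) := ⟨_, rfl⟩
  have hδ0 : 0 < δ := by rw [hδ]; positivity
  have hδ1 : (M + 1) * δ = R := by rw [hδ]; field_simp
  have hδ2 : 5 * δ < δ₀ := by
    rw [div_lt_iff₀ hδ₀] at hM
    have : (0 : ℝ) < M + 1 := by positivity
    nlinarith
  have hnear : ∀ y₀, ‖y₀ - x‖ ≤ r → ‖gradient w y₀ - n‖ ≤ 1 / 5 →
      ∀ y, ‖y - y₀‖ ≤ 5 * δ → ‖gradient w y - n‖ ≤ 3 / 10 := fun y₀ h1 h2 y h3 => by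
    have h4 := hunif y₀ h1 y (by linarith)
    have h5 := norm_sub_le_norm_sub_add_norm_sub (gradient w y) (gradient w y₀) n
    linarith
  have ind : ∀ j : ℕ, j ≤ M → ∃ u : hyp n → ℝ, u 0 = 0 ∧ ∀ η : hyp n, ‖η‖ < (j + 1) * δ →
      ContDiffAt ℝ k u η ∧ w (gr x n u η) = 0 := by
    intro j
    induction j with
    | zero =>
      intro _
      refine disc_step (u := fun _ => 0) hk0 hw hn hδ0 (by positivity) hx rfl
        (fun _ _ => contDiffAt_const) fun η hη => ⟨x, hx, ?_, hnear x (by simp; linarith) ?_⟩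
      · simpa [gr] using hη.le
      · have : 0 ≤ 4 / 3 * a * R := by positivity
        linarith
    | succ j ih =>
      intro hj
      obtain ⟨u, hu0, hu⟩ := ih (by omega)
      have hj' : ((j : ℝ) + 1) * δ ≤ R := by
        have : (j : ℝ) ≤ M := by exact_mod_cast (by omega : j ≤ M)
        nlinarith
      obtain ⟨l, hl⟩ : ∃ l : ℝ, l = (j + 1) / (j + 2) := ⟨_, rfl⟩
      have hl0 : 0 < l := by rw [hl]; positivity
      have hl1 : l * (j + 2) = j + 1 := by rw [hl]; field_simp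
      have hl2 : 0 < 1 - l := by nlinarith
      have hsm : ∀ η : hyp n, ‖η‖ < (((j + 1 : ℕ) : ℝ) + 1) * δ → ‖l • η‖ < (j + 1) * δ := by
        intro η hη
        rw [norm_smul, Real.norm_eq_abs, abs_of_pos hl0, ← hl1, mul_assoc]
        push_cast at hη
        exact mul_lt_mul_of_pos_left (by linarith) hl0
      refine disc_step (u := fun η => u (l • η)) hk0 hw hn hδ0 (by positivity) hx
        (by simp [hu0]) (fun η hη => ContDiffAt.comp η (g := u) (hu _ (hsm η hη)).1 (by fun_prop))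
        fun η hη => ?_
      obtain ⟨-, b2, b3⟩ := est _ hj' u hu0 hu _ (hsm η hη)
      have b4 := hsm η hη
      have b5 : a * ‖l • η‖ ≤ a * R := mul_le_mul_of_nonneg_left (by linarith) ha0
      refine ⟨gr x n u (l • η), (hu _ b4).2, ?_, hnear _ (by linarith) (by linarith)⟩
      have e : gr x n (fun η => u (l • η)) η - gr x n u (l • η) = (1 - l) • (η : E) := by
        simp only [gr, Submodule.coe_smul, sub_smul, one_smul]
        abel
      rw [e, norm_smul, Real.norm_eq_abs, abs_of_pos hl2, ← Submodule.coe_norm]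
      push_cast at hη
      have b6 : (1 - l) * ‖η‖ ≤ (1 - l) * ((j + 2) * δ) :=
        mul_le_mul_of_nonneg_left (by linarith) hl2.le
      have b7 : (1 - l) * ((j + 2) * δ) = δ := by
        rw [← mul_assoc, sub_mul, hl1]; ring
      exact b6.trans b7.le
  obtain ⟨u, hu0, hu⟩ := ind M le_rfl
  rw [hδ1] at hu
  refine ⟨u, hu0, fun η hη => ?_⟩
  obtain ⟨b1, b2, b3⟩ := est R le_rfl u hu0 hu η hη
  have b5 : a * ‖η‖ ≤ a * R := mul_le_mul_of_nonneg_left hη.le ha0
  refine ⟨(hu η hη).1, (hu η hη).2, b1, b2, slope_le hn (hw.differentiable hk0 _)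
    ((hu η hη).1.differentiableAt hk0) ?_ b3 (by linarith)⟩
  filter_upwards [(isOpen_lt continuous_norm continuous_const).mem_nhds hη] with ζ hζ
  exact (hu ζ hζ).2

end Vale.Agent.P218UG
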