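import Vale.Agent.P218UA.Defs
import Vale.Agent.P218UG.Disc

/-! Frames `(p, Q)`, horizontal and vertical coordinates, graphs with a unique zero. -/

open MeasureTheory Set Filter Topology Metric
open scoped RealInnerProductSpace ContDiff

namespace Vale.Agent.P218UG

open P218UA

/-- the linear part of `pt` -/
noncomputable def lin (Q : E3 ≃ₗᵢ[ℝ] E3) : E2 × ℝ →L[ℝ] E3 :=
  LinearMap.toContinuousLinearMap
    { toFun := fun z => Q !₂[z.1 0, z.1 1, z.2]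
      map_add' := fun z z' => by
        rw [← map_add]; congr 1; ext i; fin_cases i <;> simp
      map_smul' := fun c z => by
        rw [RingHom.id_apply, ← map_smul]; congr 1; ext i; fin_cases i <;> simp }

variable {Q : E3 ≃ₗᵢ[ℝ] E3} {p : E3}

lemma lin_apply (Q : E3 ≃ₗᵢ[ℝ] E3) (z : E2 × ℝ) : lin Q z = Q !₂[z.1 0, z.1 1, z.2] := rfl

lemma pt_eq (Q : E3 ≃ₗᵢ[ℝ] E3) (p : E3) (ξ : E2) (s : ℝ) : pt Q p ξ s = p + lin Q (ξ, s) := rfl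

lemma inner2 (a b : E2) : ⟪a, b⟫ = a 0 * b 0 + a 1 * b 1 := by
  simp [PiLp.inner_apply, Fin.sum_univ_two, mul_comm]

lemma inner3 (a b : E3) : ⟪a, b⟫ = a 0 * b 0 + a 1 * b 1 + a 2 * b 2 := by
  simp [PiLp.inner_apply, Fin.sum_univ_three, mul_comm]

lemma inner_lin (z z' : E2 × ℝ) : ⟪lin Q z, lin Q z'⟫ = ⟪z.1, z'.1⟫ + z.2 * z'.2 := by
  rw [lin_apply, lin_apply, Q.inner_map_map, inner3, inner2]
  simp

lemma norm_lin_sq (z : E2 × ℝ) : ‖lin Q z‖ ^ 2 = ‖z.1‖ ^ 2 + z.2 ^ 2 := by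
  rw [← real_inner_self_eq_norm_sq, inner_lin, real_inner_self_eq_norm_sq, sq z.2]

lemma norm_lin_le (z : E2 × ℝ) : ‖lin Q z‖ ≤ ‖z.1‖ + |z.2| := by
  refine abs_le_of_sq_le_sq' ?_ (by positivity) |>.2
  rw [norm_lin_sq, ← sq_abs z.2]
  nlinarith [norm_nonneg z.1, abs_nonneg z.2]

lemma fst_le_norm_lin (z : E2 × ℝ) : ‖z.1‖ ≤ ‖lin Q z‖ := by
  refine abs_le_of_sq_le_sq' ?_ (by positivity) |>.2
  rw [norm_lin_sq]
  nlinarith [sq_nonneg z.2]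

lemma snd_le_norm_lin (z : E2 × ℝ) : |z.2| ≤ ‖lin Q z‖ := by
  refine abs_le_of_sq_le_sq' ?_ (by positivity) |>.2
  rw [norm_lin_sq, sq_abs]
  nlinarith [sq_nonneg ‖z.1‖]

/-- the vertical direction -/
noncomputable def nQ (Q : E3 ≃ₗᵢ[ℝ] E3) : E3 := lin Q (0, 1)

lemma norm_nQ : ‖nQ Q‖ = 1 := by
  have := norm_lin_sq (Q := Q) (0, 1)
  simp only [norm_zero, ne_eq, OfNat.ofNat_ne_zero, not_false_eq_true, zero_pow, one_pow,
    zero_add] at this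
  exact (pow_eq_one_iff_of_nonneg (norm_nonneg _) two_ne_zero).1 this

lemma inner_lin_nQ (z : E2 × ℝ) : ⟪lin Q z, nQ Q⟫ = z.2 := by
  rw [nQ, inner_lin]; simp

/-- the horizontal coordinate -/
noncomputable def hor (Q : E3 ≃ₗᵢ[ℝ] E3) : E3 →L[ℝ] E2 :=
  LinearMap.toContinuousLinearMap
    { toFun := fun v => !₂[Q.symm v 0, Q.symm v 1]
      map_add' := fun z z' => by ext i; fin_cases i <;> simp
      map_smul' := fun c z => by ext i; fin_cases i <;> simp }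

lemma hor_apply (Q : E3 ≃ₗᵢ[ℝ] E3) (v : E3) : hor Q v = !₂[Q.symm v 0, Q.symm v 1] := rfl

lemma hor_lin (z : E2 × ℝ) : hor Q (lin Q z) = z.1 := by
  rw [hor_apply, lin_apply, Q.symm_apply_apply]
  ext i; fin_cases i <;> simp

lemma lin_hor (Q : E3 ≃ₗᵢ[ℝ] E3) (v : E3) : lin Q (hor Q v, ⟪v, nQ Q⟫) = v := by
  have h : ⟪v, nQ Q⟫ = Q.symm v 2 := by
    rw [nQ, lin_apply, ← Q.symm.inner_map_map, Q.symm_apply_apply, inner3]
    simp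
  rw [h, lin_apply, ← LinearIsometryEquiv.eq_symm_apply]
  ext i; fin_cases i <;> simp [hor_apply]

lemma pt_hor (Q : E3 ≃ₗᵢ[ℝ] E3) (p x : E3) : pt Q p (hor Q (x - p)) ⟪x - p, nQ Q⟫ = x := by
  rw [pt_eq, lin_hor]; abel

lemma norm_hor_le (v : E3) : ‖hor Q v‖ ≤ ‖v‖ := by
  conv_rhs => rw [← lin_hor Q v]
  exact fst_le_norm_lin (Q := Q) (hor Q v, ⟪v, nQ Q⟫)

lemma hor_pt (ξ : E2) (s : ℝ) : hor Q (pt Q p ξ s - p) = ξ := by
  rw [pt_eq, add_sub_cancel_left, hor_lin]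

lemma inner_pt (ξ : E2) (s : ℝ) : ⟪pt Q p ξ s - p, nQ Q⟫ = s := by
  rw [pt_eq, add_sub_cancel_left, inner_lin_nQ]

lemma pt_sub_pt (ξ ξ' : E2) (s s' : ℝ) : pt Q p ξ s - pt Q p ξ' s' = lin Q (ξ - ξ', s - s') := by
  rw [pt_eq, pt_eq, add_sub_add_left_eq_sub, ← map_sub]; rfl

lemma pt_add (ξ : E2) (s : ℝ) : pt Q p ξ s = pt Q p ξ 0 + s • nQ Q := by
  rw [pt_eq, pt_eq, nQ, ← map_smul, add_assoc, ← map_add]; simp

lemma exists_frame {n : E3} (hn : ‖n‖ = 1) : ∃ Q : E3 ≃ₗᵢ[ℝ] E3, nQ Q = n := by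
  refine ⟨Submodule.reflection (ℝ ∙ (nQ (LinearIsometryEquiv.refl ℝ E3) - n))ᗮ, ?_⟩
  exact Submodule.reflection_sub (norm_nQ.trans hn.symm)

/-- the open cylinder -/
lemma cyl_eq (Q : E3 ≃ₗᵢ[ℝ] E3) (p : E3) (R h : ℝ) :
    {x | ∃ ξ s, ‖ξ‖ < R ∧ |s| < h ∧ x = pt Q p ξ s}
      = {x | ‖hor Q (x - p)‖ < R ∧ |⟪x - p, nQ Q⟫| < h} := by
  ext x
  constructor
  · rintro ⟨ξ, s, h1, h2, rfl⟩
    simp only [mem_ofPred_eq, hor_pt, inner_pt]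
    exact ⟨h1, h2⟩
  · rintro ⟨h1, h2⟩
    exact ⟨_, _, h1, h2, (pt_hor Q p x).symm⟩

lemma isOpen_cyl (Q : E3 ≃ₗᵢ[ℝ] E3) (p : E3) (R h : ℝ) :
    IsOpen {x | ∃ ξ s, ‖ξ‖ < R ∧ |s| < h ∧ x = pt Q p ξ s} := by
  rw [cyl_eq]
  have h1 : Continuous fun x : E3 => ‖hor Q (x - p)‖ := by fun_prop
  have h2 : Continuous fun x : E3 => |⟪x - p, nQ Q⟫| := by fun_prop
  exact (isOpen_lt h1 continuous_const).inter (isOpen_lt h2 continuous_const)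

lemma contDiff_pt {k : WithTop ℕ∞} : ContDiff ℝ k fun z : E2 × ℝ => pt Q p z.1 z.2 :=
  contDiff_const.add (lin Q).contDiff

lemma fderiv_eq_inner (u : E2 → ℝ) (ξ a : E2) : fderiv ℝ u ξ a = ⟪gradient u ξ, a⟫ :=
  (P218GA.inner_grad u ξ a).symm

/-- the derivative of the parametrisation of a graph -/
lemma hasFDerivAt_graph {u : E2 → ℝ} {ξ : E2} (hu : DifferentiableAt ℝ u ξ) :
    HasFDerivAt (fun ζ => pt Q p ζ (u ζ))
      ((lin Q).comp ((ContinuousLinearMap.id ℝ E2).prod (fderiv ℝ u ξ))) ξ :=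
  ((lin Q).hasFDerivAt.comp ξ ((hasFDerivAt_id ξ).prodMk hu.hasFDerivAt)).const_add p

lemma hasDerivAt_pt (ξ : E2) (s : ℝ) : HasDerivAt (fun s => pt Q p ξ s) (nQ Q) s := by
  have h := ((hasDerivAt_id s).smul_const (nQ Q)).const_add (pt Q p ξ 0)
  rw [one_smul] at h
  exact h.congr_of_eventuallyEq (Eventually.of_forall fun s => pt_add ξ s)

section unique

variable {P : Type*} [NormedAddCommGroup P] [NormedSpace ℝ P] [CompleteSpace P]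
variable {n : WithTop ℕ∞} {f : P × ℝ → ℝ}

/-- a function with exactly one simple zero in the last variable -/
theorem exists_graph_of_unique (hn : n ≠ 0) {K : Set P} {a b : ℝ}
    (hf : ∀ p ∈ K, ∀ s ∈ Icc a b, ContDiffAt ℝ n f (p, s)) (ha : ∀ p ∈ K, f (p, a) ≠ 0)
    (hb : ∀ p ∈ K, f (p, b) ≠ 0)
    (hd : ∀ p ∈ K, ∀ s ∈ Icc a b, f (p, s) = 0 → fderiv ℝ f (p, s) (0, 1) ≠ 0)
    (h1 : ∀ p ∈ K, ∃! s, s ∈ Icc a b ∧ f (p, s) = 0) :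
    ∃ u : P → ℝ, ∀ p ∈ K, ContDiffAt ℝ n u p ∧
      ∀ᶠ q in 𝓝 p, ∀ s, (s ∈ Icc a b ∧ f (q, s) = 0) ↔ u q = s := by
  classical
  refine ⟨fun q => Classical.epsilon fun s => s ∈ Icc a b ∧ f (q, s) = 0, fun p hp => ?_⟩
  obtain ⟨m, φ, hφ, hev⟩ := exists_stack_local hn (hf p hp) (ha p hp) (hb p hp) (hd p hp)
  obtain ⟨s₀, hs₀, huniq⟩ := h1 p hp
  obtain ⟨h2, h3⟩ := hev.self_of_nhds
  obtain ⟨j, hj⟩ := (h3 s₀).1 hs₀
  have h4 : ∀ i, i = j := fun i => h2.injective ((huniq _ ((h3 _).2 ⟨i, rfl⟩)).trans hj.symm)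
  have h5 : ∀ᶠ q in 𝓝 p, ∀ s, (s ∈ Icc a b ∧ f (q, s) = 0) ↔ φ j q = s := by
    filter_upwards [hev] with q hq s
    rw [hq.2]
    exact ⟨fun ⟨i, hi⟩ => h4 i ▸ hi, fun h => ⟨j, h⟩⟩
  have h6 : ∀ᶠ q in 𝓝 p,
      (Classical.epsilon fun s => s ∈ Icc a b ∧ f (q, s) = 0) = φ j q := by
    filter_upwards [h5] with q hq
    exact ((hq _).1 (Classical.epsilon_spec (p := fun s => s ∈ Icc a b ∧ f (q, s) = 0)
      ⟨_, (hq _).2 rfl⟩)).symm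
  refine ⟨(hφ j).congr_of_eventuallyEq h6, ?_⟩
  filter_upwards [h5, h6] with q a1 a2 s
  rw [a2, a1]

/-- the number of zeros is constant on connected sets of parameters -/
theorem ncard_zero_const (hn : n ≠ 0) {K : Set P} (hK : IsPreconnected K) {a b : ℝ}
    (hf : ∀ p ∈ K, ∀ s ∈ Icc a b, ContDiffAt ℝ n f (p, s)) (ha : ∀ p ∈ K, f (p, a) ≠ 0)
    (hb : ∀ p ∈ K, f (p, b) ≠ 0)
    (hd : ∀ p ∈ K, ∀ s ∈ Icc a b, f (p, s) = 0 → fderiv ℝ f (p, s) (0, 1) ≠ 0) :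
    ∃ m : ℕ, ∀ p ∈ K, {s | s ∈ Icc a b ∧ f (p, s) = 0}.Finite ∧
      {s | s ∈ Icc a b ∧ f (p, s) = 0}.ncard = m := by
  have h1 : ∀ p ∈ K, ∃ m, ∀ᶠ q in 𝓝 p, {s | s ∈ Icc a b ∧ f (q, s) = 0}.Finite ∧
      {s | s ∈ Icc a b ∧ f (q, s) = 0}.ncard = m := fun p hp => by
    obtain ⟨m, φ, -, hev⟩ := exists_stack_local hn (hf p hp) (ha p hp) (hb p hp) (hd p hp)
    refine ⟨m, hev.mono fun q hq => ?_⟩
    have e : {s | s ∈ Icc a b ∧ f (q, s) = 0} = range fun j => φ j q := Set.ext hq.2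
    rw [e, ncard_range_of_injective hq.1.injective]
    exact ⟨finite_range _, by simp⟩
  rcases K.eq_empty_or_nonempty with rfl | ⟨p₀, hp₀⟩
  · exact ⟨0, fun p hp => hp.elim⟩
  refine ⟨{s | s ∈ Icc a b ∧ f (p₀, s) = 0}.ncard, fun p hp => ⟨?_, ?_⟩⟩
  · obtain ⟨m, hm⟩ := h1 p hp
    exact hm.self_of_nhds.1
  · refine hK.constant (f := fun q => {s | s ∈ Icc a b ∧ f (q, s) = 0}.ncard) (fun q hq => ?_)
      hp hp₀
    obtain ⟨m, hm⟩ := h1 q hq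
    refine ContinuousAt.continuousWithinAt (tendsto_const_nhds.congr' ?_)
    filter_upwards [hm] with q' hq'
    rw [hq'.2, hm.self_of_nhds.2]

end unique

end Vale.Agent.P218UG
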