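import Vale.Agent.P218UG.Frame

/-! Basic facts on surfaces and flows: joint smoothness of the gradient, the Hessian and the
Laplacian, the eikonal equation. -/

open MeasureTheory Set Filter Topology Metric
open scoped RealInnerProductSpace ContDiff

namespace Vale.Agent.P218UG

open P218UA
open Vale.Agent.P218.H63 (lap hessSq)

section grad

variable {E P : Type*} [NormedAddCommGroup E] [InnerProductSpace ℝ E] [FiniteDimensional ℝ E]
  [NormedAddCommGroup P] [NormedSpace ℝ P]

/-- the gradient in the second variable is jointly smooth -/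
lemma contDiffAt_grad {f : P → E → ℝ} {p : P × E} {m n : WithTop ℕ∞} (hmn : m + 1 ≤ n)
    (hf : ContDiffAt ℝ n (fun q : P × E => f q.1 q.2) p) :
    ContDiffAt ℝ m (fun q : P × E => gradient (f q.1) q.2) p := by
  have h1 : ContDiffAt ℝ n (Function.uncurry fun (q : P × E) (x : E) => f q.1 x) (p, p.2) :=
    ContDiffAt.comp (p, p.2) (g := fun q : P × E => f q.1 q.2)
      (f := fun z : (P × E) × E => (z.1.1, z.2)) hf (by fun_prop)
  have h2 := h1.fderiv (g := Prod.snd) contDiffAt_snd hmn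
  exact (InnerProductSpace.toDual ℝ E).symm.contDiff.contDiffAt.comp p h2

/-- the Hessian in the second variable is jointly smooth -/
lemma contDiffAt_hess {f : P → E → ℝ} {p : P × E} {m n : WithTop ℕ∞} (hmn : m + 1 + 1 ≤ n)
    (hf : ContDiffAt ℝ n (fun q : P × E => f q.1 q.2) p) :
    ContDiffAt ℝ m (fun q : P × E => fderiv ℝ (gradient (f q.1)) q.2) p := by
  have h0 := contDiffAt_grad hmn hf
  have h1 : ContDiffAt ℝ (m + 1)
      (Function.uncurry fun (q : P × E) (x : E) => gradient (f q.1) x) (p, p.2) :=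
    ContDiffAt.comp (p, p.2) (g := fun q : P × E => gradient (f q.1) q.2)
      (f := fun z : (P × E) × E => (z.1.1, z.2)) h0 (by fun_prop)
  exact h1.fderiv (g := Prod.snd) contDiffAt_snd le_rfl

/-- the trace as a continuous linear map -/
noncomputable def trL (E : Type*) [NormedAddCommGroup E] [InnerProductSpace ℝ E]
    [FiniteDimensional ℝ E] : (E →L[ℝ] E) →L[ℝ] ℝ :=
  LinearMap.toContinuousLinearMap ((LinearMap.trace ℝ E).comp (ContinuousLinearMap.coeLM ℝ))

lemma lap_eq (f : E → ℝ) (x : E) : lap f x = trL E (fderiv ℝ (gradient f) x) := rfl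

/-- the Laplacian in the second variable is jointly smooth -/
lemma contDiffAt_lap {f : P → E → ℝ} {p : P × E} {m n : WithTop ℕ∞} (hmn : m + 1 + 1 ≤ n)
    (hf : ContDiffAt ℝ n (fun q : P × E => f q.1 q.2) p) :
    ContDiffAt ℝ m (fun q : P × E => lap (f q.1) q.2) p :=
  (trL E).contDiff.contDiffAt.comp p (contDiffAt_hess hmn hf)

lemma contDiffAt_grad' {u : E → ℝ} {x : E} {m n : WithTop ℕ∞} (hmn : m + 1 ≤ n)
    (hu : ContDiffAt ℝ n u x) : ContDiffAt ℝ m (gradient u) x :=
  (InnerProductSpace.toDual ℝ E).symm.contDiff.contDiffAt.comp x (hu.fderiv_right hmn)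

lemma norm_grad (u : E → ℝ) (x : E) : ‖gradient u x‖ = ‖fderiv ℝ u x‖ :=
  (InnerProductSpace.toDual ℝ E).symm.norm_map _

end grad

variable {w : ℝ → E3 → ℝ} {I : Set ℝ}

lemma flow_cd (h : IsFlow w I) {t : ℝ} (ht : t ∈ I) (x : E3) :
    ContDiffAt ℝ ∞ (fun p : ℝ × E3 => w p.1 p.2) (t, x) :=
  h.smooth.contDiffAt ((h.isOpen.prod isOpen_univ).mem_nhds ⟨ht, trivial⟩)

lemma flow_slice (h : IsFlow w I) {t : ℝ} (ht : t ∈ I) : IsSurf (w t) where
  smooth := contDiff_iff_contDiffAt.2 fun x =>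
    ContDiffAt.comp x (g := fun p : ℝ × E3 => w p.1 p.2) (f := fun x : E3 => (t, x))
      (flow_cd h ht x) (by fun_prop)
  eik x hx := (Continuous.prodMk_right t).continuousAt.eventually (h.eik t ht x hx)

lemma flow_grad (h : IsFlow w I) {t : ℝ} (ht : t ∈ I) (x : E3) :
    ContDiffAt ℝ ∞ (fun p : ℝ × E3 => gradient (w p.1) p.2) (t, x) :=
  contDiffAt_grad le_rfl (flow_cd h ht x)

lemma flow_hs (h : IsFlow w I) {t : ℝ} (ht : t ∈ I) (x : E3) :
    ContDiffAt ℝ ∞ (fun p : ℝ × E3 => hs (w p.1) p.2) (t, x) :=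
  contDiffAt_hess le_rfl (flow_cd h ht x)

lemma flow_lap (h : IsFlow w I) {t : ℝ} (ht : t ∈ I) (x : E3) :
    ContDiffAt ℝ ∞ (fun p : ℝ × E3 => lap (w p.1) p.2) (t, x) :=
  contDiffAt_lap le_rfl (flow_cd h ht x)

variable {W : E3 → ℝ}

lemma surf_unit (h : IsSurf W) {x : E3} (hx : W x = 0) : ‖gradient W x‖ = 1 :=
  (h.eik x hx).self_of_nhds

lemma surf_cd2 (h : IsSurf W) : ContDiff ℝ 2 W := h.smooth.of_le (by norm_cast)

lemma surf_diff (h : IsSurf W) : Differentiable ℝ W := (surf_cd2 h).differentiable (by norm_num)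

lemma surf_grad_diff (h : IsSurf W) : Differentiable ℝ (gradient W) :=
  (contDiff_grad (surf_cd2 h)).differentiable (by norm_num)

lemma surf_meas (h : IsSurf W) : MeasurableSet {x | W x = 0} :=
  (isClosed_eq h.smooth.continuous continuous_const).measurableSet

/-- the differentiated eikonal equation -/
lemma inner_hs_grad (h : IsSurf W) {x : E3} (hx : W x = 0) (v : E3) :
    ⟪hs W x v, gradient W x⟫ = 0 := by
  have h1 := (surf_grad_diff h x).hasFDerivAt
  have h2 := h1.inner ℝ h1
  have h3 : HasFDerivAt (fun y => ⟪gradient W y, gradient W y⟫) (0 : E3 →L[ℝ] ℝ) x := by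
    refine (hasFDerivAt_const 1 x).congr_of_eventuallyEq ?_
    filter_upwards [h.eik x hx] with y hy
    rw [real_inner_self_eq_norm_sq, hy]; norm_num
  have h4 := congrArg (fun L : E3 →L[ℝ] ℝ => L v) (h2.unique h3)
  simp only [ContinuousLinearMap.comp_apply, fderivInnerCLM_apply, ContinuousLinearMap.prod_apply,
    zero_apply] at h4
  rw [real_inner_comm] at h4
  unfold hs
  linarith

end Vale.Agent.P218UG
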