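import Vale.Agent.P218UG.FlowB
import Vale.Agent.P218UM.Basic

/-! Dependence on time of the mass ratio `mk` and of the distance `beta` to parallel planes. -/

open MeasureTheory Set Filter Topology Metric
open scoped ENNReal RealInnerProductSpace ContDiff

namespace Vale.Agent.P218UG

open P218UA P218UM
open Vale.Agent.P218.H63 (lap hessSq)

variable {w : ℝ → E3 → ℝ} {I : Set ℝ} {A : ℝ}

lemma ae_ar {W : E3 → ℝ} (h : IsSurf W) : ∀ᵐ x ∂(ar W), W x = 0 :=
  ae_restrict_mem (surf_meas h)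

lemma surf_lap_cont {W : E3 → ℝ} (h : IsSurf W) : Continuous (lap W) :=
  (trL E3).continuous.comp ((contDiff_grad (surf_cd2 h)).continuous_fderiv (by norm_num))

/-- the time derivative of the integral of a fixed test function -/
lemma hasDerivAt_test (hC : Calc) (h : IsFlow w I) {φ : E3 → ℝ} (hφ : ContDiff ℝ 1 φ) {K : Set E3}
    (hK : IsCompact K) (h0 : ∀ x, x ∉ K → φ x = 0) {t : ℝ} (ht : t ∈ I) :
    HasDerivAt (fun s => ∫ x, φ x ∂(ar (w s)))
      (∫ x, (-(lap (w t) x * ⟪gradient φ x, gradient (w t) x⟫) - lap (w t) x ^ 2 * φ x)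
        ∂(ar (w t))) t := by
  have := hC.ddt w I h I h.isOpen Subset.rfl (fun _ => φ)
    (hφ.comp contDiff_snd).contDiffOn K hK (fun _ _ => h0) t ht
  simpa only [deriv_const', zero_sub] using this

lemma grad_zero_of_notMem {φ : E3 → ℝ} {K : Set E3} (hK : IsClosed K) (h0 : ∀ x, x ∉ K → φ x = 0)
    {x : E3} (hx : x ∉ K) : gradient φ x = 0 := by
  have : φ =ᶠ[𝓝 x] fun _ => 0 := by
    filter_upwards [hK.isOpen_compl.mem_nhds hx] with y hy using h0 y hy
  rw [this.gradient_eq, gradient_fun_const]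

lemma integrable_ddt (h : IsFlow w I) {φ : E3 → ℝ} (hφ : ContDiff ℝ 1 φ) {K : Set E3}
    (hK : IsCompact K) (h0 : ∀ x, x ∉ K → φ x = 0) {t : ℝ} (ht : t ∈ I) :
    Integrable (fun x => -(lap (w t) x * ⟪gradient φ x, gradient (w t) x⟫)
      - lap (w t) x ^ 2 * φ x) (ar (w t)) := by
  have hS := flow_slice h ht
  have := locFin_ar ((surf_cd2 hS).of_le (by norm_num)) fun x hx => surf_unit hS hx
  have c1 := surf_lap_cont hS
  have c2 := P218GA.continuous_gradient hφ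
  have c3 := (contDiff_grad (surf_cd2 hS)).continuous
  have c4 := hφ.continuous
  refine Continuous.integrable_of_hasCompactSupport (by fun_prop)
    (HasCompactSupport.intro hK fun x hx => ?_)
  simp [h0 x hx, grad_zero_of_notMem hK.isClosed h0 hx]

/-- an upper bound for an integral over a ball -/
lemma integral_le_ball {μ : Measure E3} (h : AR μ A) (hA : 0 ≤ A) {f : E3 → ℝ}
    (hf : Integrable f μ) {x : E3} {r B : ℝ} (hr : 0 < r) (hB : 0 ≤ B)
    (h0 : ∀ y, y ∉ closedBall x r → f y = 0) (h1 : ∀ᵐ y ∂μ, y ∈ closedBall x r → f y ≤ B) :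
    ∫ y, f y ∂μ ≤ B * (A * r ^ 2) := by
  have := h.locFin
  rw [← setIntegral_eq_integral_of_forall_compl_eq_zero h0]
  have h2 : ∫ y in closedBall x r, f y ∂μ ≤ ∫ y in closedBall x r, B ∂μ :=
    setIntegral_mono_on_ae hf.integrableOn
      (integrableOn_const (isCompact_closedBall x r).measure_lt_top.ne) measurableSet_closedBall h1
  rw [setIntegral_const, smul_eq_mul] at h2
  have h3 := h.real_le hA x hr
  nlinarith

lemma contDiff_kk_scale (x : E3) (r : ℝ) : ContDiff ℝ 1 fun y : E3 => kk (r⁻¹ • (y - x)) :=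
  (contDiff_kk.of_le (by norm_num)).comp (by fun_prop)

lemma inner_grad_kk_scale (x y v : E3) (r : ℝ) :
    ⟪gradient (fun y : E3 => kk (r⁻¹ • (y - x))) y, v⟫ = -(4 / Real.pi
      * (6 * max (1 - ‖r⁻¹ • (y - x)‖ ^ 2) 0 ^ 2 * (r⁻¹ * ⟪r⁻¹ • (y - x), v⟫))) := by
  have h1 : HasFDerivAt (fun y : E3 => r⁻¹ • (y - x)) (r⁻¹ • ContinuousLinearMap.id ℝ E3) y :=
    ((hasFDerivAt_id y).sub_const x).const_smul r⁻¹
  have h2 := (hasFDerivAt_kk (r⁻¹ • (y - x))).comp y h1
  rw [P218GA.inner_grad]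
  refine (congrArg (fun L : E3 →L[ℝ] ℝ => L v) h2.fderiv).trans ?_
  simp only [ContinuousLinearMap.comp_apply, smul_apply, ContinuousLinearMap.id_apply, neg_apply,
    innerSL_apply_apply, real_inner_smul_right, smul_eq_mul, nsmul_eq_mul]
  push_cast
  ring

lemma hasDerivAt_mk (hC : Calc) (h : IsARFlow w I A) (x : E3) {r : ℝ} (hr : 0 < r) {t : ℝ}
    (ht : t ∈ I) : ∃ D, D ≤ 3 * A / r ^ 2 ∧ HasDerivAt (fun s => mk (ar (w s)) x r) D t := by
  have hA : 0 ≤ A := by linarith [h.one_le]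
  have h0 : ∀ y, y ∉ closedBall x r → kk (r⁻¹ • (y - x)) = 0 := fun y hy => by
    rw [mem_closedBall_iff_norm, not_le] at hy
    exact kk_scale_zero hr hy.le
  have h1 := hasDerivAt_test hC h.toIsFlow (contDiff_kk_scale x r) (isCompact_closedBall x r) h0 ht
  refine ⟨_, ?_, h1.div_const (r ^ 2)⟩
  refine div_le_div_of_nonneg_right ?_ (by positivity)
  have hS := flow_slice h.toIsFlow ht
  refine (integral_le_ball (h.ratio t ht) hA (integrable_ddt h.toIsFlow (contDiff_kk_scale x r)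
    (isCompact_closedBall x r) h0 ht) (x := x) hr (B := 3 / r ^ 2) (by positivity) (fun y hy => ?_)
    ?_).trans (le_of_eq (by field_simp))
  · simp [h0 y hy, grad_zero_of_notMem isClosed_closedBall h0 hy]
  · filter_upwards [ae_ar hS] with y hy _
    rw [inner_grad_kk_scale, kk]
    obtain ⟨z, hz⟩ : ∃ z, z = r⁻¹ • (y - x) := ⟨_, rfl⟩
    rw [← hz]
    have a1 := abs_real_inner_le_norm z (gradient (w t) y)
    rw [surf_unit hS hy, mul_one] at a1
    have a2 : ⟪z, gradient (w t) y⟫ ^ 2 ≤ ‖z‖ ^ 2 := by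
      rw [← sq_abs]; exact pow_le_pow_left₀ (abs_nonneg _) a1 2
    generalize ⟪z, gradient (w t) y⟫ = a at a2
    generalize lap (w t) y = H
    have a3 : max (1 - ‖z‖ ^ 2) 0 * a ^ 2 ≤ 1 / 4 := by
      rcases le_total (1 - ‖z‖ ^ 2) 0 with h | h
      · rw [max_eq_right h]; norm_num
      · rw [max_eq_left h]; nlinarith [sq_nonneg (‖z‖ ^ 2 - 1 / 2)]
    have a4 : 0 ≤ max (1 - ‖z‖ ^ 2) 0 := le_max_right _ _
    generalize max (1 - ‖z‖ ^ 2) 0 = m at a3 a4
    have a5 : H * (6 * m ^ 2 * (r⁻¹ * a)) - H ^ 2 * m ^ 3 ≤ 9 / 4 * r⁻¹ ^ 2 := by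
      have b1 := mul_nonneg a4 (sq_nonneg (H * m - 3 * (r⁻¹ * a)))
      have b2 := mul_le_mul_of_nonneg_left a3 (sq_nonneg r⁻¹)
      nlinarith
    have a6 := mul_le_mul four_div_pi_le le_rfl (by positivity : 0 ≤ 9 / 4 * r⁻¹ ^ 2) (by norm_num)
    have a7 := mul_le_mul_of_nonneg_left a5 (by positivity : 0 ≤ 4 / Real.pi)
    rw [div_eq_mul_inv 3, ← inv_pow]
    linarith

lemma continuousOn_mk (hC : Calc) (h : IsARFlow w I A) (x : E3) {r : ℝ} (hr : 0 < r) :
    ContinuousOn (fun s => mk (ar (w s)) x r) I := fun _ ht =>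
  (hasDerivAt_mk hC h x hr ht).choose_spec.2.continuousAt.continuousWithinAt

/-- the mass ratio is almost decreasing -/
theorem mk_almost_anti (hC : Calc) (h : IsARFlow w I A) (x : E3) {r : ℝ} (hr : 0 < r) {t₁ t₂ : ℝ}
    (h₁ : t₁ ∈ I) (h₂ : t₂ ∈ I) (ht : t₁ ≤ t₂) :
    mk (ar (w t₂)) x r ≤ mk (ar (w t₁)) x r + 3 * A / r ^ 2 * (t₂ - t₁) := by
  have hI : Icc t₁ t₂ ⊆ I := h.conn.out h₁ h₂
  have := (convex_Icc t₁ t₂).image_sub_le_mul_sub_of_deriv_le
    ((continuousOn_mk hC h x hr).mono hI) (fun t ht =>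
      (hasDerivAt_mk hC h x hr (hI (interior_subset ht))).choose_spec.2.differentiableAt
        |>.differentiableWithinAt) (C := 3 * A / r ^ 2) (fun t ht => by
      obtain ⟨D, h1, h2⟩ := hasDerivAt_mk hC h x hr (hI (interior_subset ht))
      rwa [h2.deriv]) t₁ (left_mem_Icc.2 ht) t₂ (right_mem_Icc.2 ht) ht
  linarith

/-! the distance to parallel planes -/

variable {μ μ' : Measure E3} {z : E3} {r L δ : ℝ}

lemma NearPl.mono (h : NearPl μ z r L δ) {δ' : ℝ} (hδ : δ ≤ δ') : NearPl μ z r L δ' := by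
  obtain ⟨n, k, a, hn, h⟩ := h
  exact ⟨n, k, a, hn, fun φ hφ => (h φ hφ).trans hδ⟩

lemma test_zero {φ : E3 → ℝ} (hφ : IsTest L φ) (hr : 0 < r) (y : E3)
    (hy : y ∉ closedBall z (L * r)) : φ (r⁻¹ • (y - z)) = 0 := by
  refine hφ.supp _ ?_
  rw [mem_closedBall_iff_norm, not_le] at hy
  rw [norm_smul, norm_inv, Real.norm_eq_abs, abs_of_pos hr, ← div_eq_inv_mul, le_div_iff₀ hr]
  exact hy.le

lemma nearPl_top (h : AR μ A) (hA : 0 ≤ A) (hr : 0 < r) (hL : 0 < L) :
    NearPl μ z r L (A * L ^ 2) := by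
  have := h.locFin
  refine ⟨nQ (LinearIsometryEquiv.refl ℝ E3), 0, Fin.elim0, norm_nQ, fun φ hφ => ?_⟩
  have h1 := abs_integral_le_ball (μ := μ) (test_zero (z := z) hφ hr) fun y => hφ.le_one _
  have h2 := h.real_le hA z (r := L * r) (by positivity)
  simp only [pl, Finset.univ_eq_empty, Finset.sum_empty, integral_zero_measure, sub_zero]
  rw [abs_div, abs_of_pos (by positivity : 0 < r ^ 2), div_le_iff₀ (by positivity)]
  nlinarith

lemma beta_nonneg (μ : Measure E3) (z : E3) (r L : ℝ) : 0 ≤ beta μ z r L :=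
  Real.sInf_nonneg fun _ h => h.1

lemma beta_le_of_near (hδ : 0 ≤ δ) (h : NearPl μ z r L δ) : beta μ z r L ≤ δ :=
  csInf_le ⟨0, fun _ h => h.1⟩ ⟨hδ, h⟩

lemma beta_le (h : AR μ A) (hA : 0 ≤ A) (hr : 0 < r) (hL : 0 < L) : beta μ z r L ≤ A * L ^ 2 :=
  beta_le_of_near (by positivity) (nearPl_top h hA hr hL)

lemma nearPl_of_lt (h : AR μ A) (hA : 0 ≤ A) (hr : 0 < r) (hL : 0 < L) (hδ : beta μ z r L < δ) :
    NearPl μ z r L δ := by
  obtain ⟨δ', h1, h2⟩ := exists_lt_of_csInf_lt (s := {δ | 0 ≤ δ ∧ NearPl μ z r L δ})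
    ⟨A * L ^ 2, by positivity, nearPl_top (z := z) h hA hr hL⟩ hδ
  exact NearPl.mono h1.2 h2.le

lemma beta_le_add (h : AR μ A) (hA : 0 ≤ A) (hr : 0 < r) (hL : 0 < L) {D : ℝ} (hD : 0 ≤ D)
    (hd : ∀ φ, IsTest L φ → |(∫ y, φ (r⁻¹ • (y - z)) ∂μ') / r ^ 2
      - (∫ y, φ (r⁻¹ • (y - z)) ∂μ) / r ^ 2| ≤ D) : beta μ' z r L ≤ beta μ z r L + D := by
  refine le_of_forall_pos_le_add fun ε hε => ?_
  obtain ⟨n, k, a, hn, h1⟩ := nearPl_of_lt h hA hr hL (lt_add_of_pos_right (beta μ z r L) hε)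
  have h0 := beta_nonneg μ z r L
  refine beta_le_of_near (by positivity) ⟨n, k, a, hn, fun φ hφ => ?_⟩
  have h2 := h1 φ hφ
  have h3 := hd φ hφ
  rw [abs_le] at h2 h3 ⊢
  constructor <;> linarith [h2.1, h2.2, h3.1, h3.2]

/-- integrals of test functions are uniformly Lipschitz on compact time intervals -/
lemma exists_lip_test (hC : Calc) (h : IsARFlow w I A) (z : E3) (hr : 0 < r) (hL : 0 < L) {a b : ℝ}
    (hab : Icc a b ⊆ I) : ∃ K, 0 ≤ K ∧ ∀ φ, IsTest L φ → ∀ s ∈ Icc a b, ∀ t ∈ Icc a b,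
      |(∫ y, φ (r⁻¹ • (y - z)) ∂(ar (w t))) / r ^ 2 - (∫ y, φ (r⁻¹ • (y - z)) ∂(ar (w s))) / r ^ 2|
        ≤ K * |t - s| := by
  have hA : 0 ≤ A := by linarith [h.one_le]
  obtain ⟨B, hB⟩ := (isCompact_Icc.prod (isCompact_closedBall z (L * r))).exists_bound_of_continuousOn
    (f := fun p : ℝ × E3 => lap (w p.1) p.2) (s := Icc a b ×ˢ closedBall z (L * r))
    fun p hp => (flow_lap h.toIsFlow (hab hp.1) p.2).continuousAt.continuousWithinAt
  refine ⟨(|B| * r⁻¹ + B ^ 2) * (A * (L * r) ^ 2) / r ^ 2, by positivity, fun φ hφ s hs t ht => ?_⟩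
  have hc : ContDiff ℝ 1 fun y : E3 => φ (r⁻¹ • (y - z)) := hφ.smooth.comp (by fun_prop)
  have hD := fun t (ht : t ∈ Icc a b) => (hasDerivAt_test hC h.toIsFlow hc
    (isCompact_closedBall z (L * r)) (test_zero hφ hr) (hab ht)).div_const (r ^ 2)
  refine (convex_Icc a b).norm_image_sub_le_of_norm_hasDerivWithin_le
    (fun t ht => (hD t ht).hasDerivWithinAt) (fun t ht => ?_) hs ht
  have hS := flow_slice h.toIsFlow (hab ht)
  have hi := integrable_ddt h.toIsFlow hc (isCompact_closedBall z (L * r)) (test_zero hφ hr)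
    (hab ht)
  rw [norm_div, Real.norm_of_nonneg (sq_nonneg r)]
  refine div_le_div_of_nonneg_right ((norm_integral_le_integral_norm _).trans ?_) (sq_nonneg r)
  refine integral_le_ball (h.ratio t (hab ht)) hA hi.norm (x := z) (by positivity) (by positivity)
    (fun y hy => ?_) ?_
  · simp [test_zero hφ hr y hy, grad_zero_of_notMem isClosed_closedBall (test_zero hφ hr) hy]
  · filter_upwards [ae_ar hS] with y hy hy'
    have a1 : |lap (w t) y| ≤ |B| := (hB (t, y) ⟨ht, hy'⟩).trans (le_abs_self B)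
    have a2 : ‖gradient (fun y : E3 => φ (r⁻¹ • (y - z))) y‖ ≤ r⁻¹ := by
      have b1 : HasFDerivAt (fun y : E3 => r⁻¹ • (y - z))
          (r⁻¹ • ContinuousLinearMap.id ℝ E3) y := ((hasFDerivAt_id y).sub_const z).const_smul r⁻¹
      have b2 := (hφ.smooth.differentiable (by norm_num) _).hasFDerivAt.comp y b1
      rw [norm_grad, show (fun y : E3 => φ (r⁻¹ • (y - z))) = φ ∘ fun y => r⁻¹ • (y - z) from rfl,
        b2.fderiv]
      refine (ContinuousLinearMap.opNorm_comp_le _ _).trans ?_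
      rw [norm_smul, ContinuousLinearMap.norm_id, norm_inv, Real.norm_of_nonneg hr.le, mul_one]
      exact mul_le_of_le_one_left (by positivity) (hφ.deriv_le _)
    have a3 := abs_real_inner_le_norm (gradient (fun y : E3 => φ (r⁻¹ • (y - z))) y)
      (gradient (w t) y)
    rw [surf_unit hS hy, mul_one] at a3
    refine (norm_sub_le _ _).trans (add_le_add ?_ ?_)
    · rw [norm_neg, norm_mul]
      exact mul_le_mul a1 (a3.trans a2) (norm_nonneg _) (abs_nonneg _)
    · rw [norm_mul, norm_pow, ← sq_abs B]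
      exact (mul_le_mul (pow_le_pow_left₀ (norm_nonneg _) a1 2) (hφ.le_one _) (abs_nonneg _)
        (by positivity)).trans_eq (mul_one _)

/-- `beta` is Lipschitz on compact time intervals -/
theorem exists_lip_beta (hC : Calc) (h : IsARFlow w I A) (z : E3) (hr : 0 < r) (hL : 0 < L)
    {a b : ℝ} (hab : Icc a b ⊆ I) : ∃ K, 0 ≤ K ∧ ∀ s ∈ Icc a b, ∀ t ∈ Icc a b,
      |beta (ar (w t)) z r L - beta (ar (w s)) z r L| ≤ K * |t - s| := by
  have hA : 0 ≤ A := by linarith [h.one_le]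
  obtain ⟨K, hK, h1⟩ := exists_lip_test hC h z hr hL hab
  refine ⟨K, hK, fun s hs t ht => abs_le.2 ⟨?_, ?_⟩⟩
  · have := beta_le_add (h.ratio t (hab ht)) hA hr hL (by positivity)
      fun φ hφ => h1 φ hφ t ht s hs
    rw [abs_sub_comm s t] at this
    linarith
  · have := beta_le_add (h.ratio s (hab hs)) hA hr hL (by positivity)
      fun φ hφ => h1 φ hφ s hs t ht
    linarith

theorem continuousOn_beta_Icc (hC : Calc) (h : IsARFlow w I A) (z : E3) (hr : 0 < r) (hL : 0 < L)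
    {a b : ℝ} (hab : Icc a b ⊆ I) : ContinuousOn (fun t => beta (ar (w t)) z r L) (Icc a b) := by
  obtain ⟨K, hK, h1⟩ := exists_lip_beta hC h z hr hL hab
  exact (LipschitzOnWith.of_dist_le' (K := K) fun s hs t ht => h1 t ht s hs).continuousOn

theorem continuousOn_beta (hC : Calc) (h : IsARFlow w I A) (z : E3) (hr : 0 < r) (hL : 0 < L) :
    ContinuousOn (fun t => beta (ar (w t)) z r L) I := by
  intro t ht
  obtain ⟨a, b, -, h1, h2⟩ := exists_Icc_mem_subset_of_mem_nhds (h.isOpen.mem_nhds ht)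
  exact ((continuousOn_beta_Icc hC h z hr hL h2).continuousAt h1).continuousWithinAt

/-! good times -/

lemma continuous_k01 : Continuous k01 :=
  (expNegInvGlue.contDiff (n := 0)).continuous.mul
    ((expNegInvGlue.contDiff (n := 0)).continuous.comp (by fun_prop))

lemma k01_nonneg (s : ℝ) : 0 ≤ k01 s := mul_nonneg (expNegInvGlue.nonneg _) (expNegInvGlue.nonneg _)

lemma k01_eq_zero {s : ℝ} (hs : s ∉ Icc (0 : ℝ) 1) : k01 s = 0 := by
  rw [mem_Icc, not_and_or, not_le, not_le] at hs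
  rcases hs with h | h
  · rw [k01, expNegInvGlue.zero_of_nonpos h.le, zero_mul]
  · rw [k01, expNegInvGlue.zero_of_nonpos (x := 1 - s) (by linarith), mul_zero]

lemma exists_k01_ge {a : ℝ} (ha : 0 < a) : ∃ κ > 0, ∀ s ∈ Icc a (1 / 2), κ ≤ k01 s := by
  rcases le_or_gt a (1 / 2) with h | h
  · obtain ⟨s, hs, h1⟩ := isCompact_Icc.exists_isMinOn (nonempty_Icc.2 h)
      continuous_k01.continuousOn
    exact ⟨k01 s, mul_pos (expNegInvGlue.pos_of_pos (by linarith [hs.1]))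
      (expNegInvGlue.pos_of_pos (by linarith [hs.2])), fun t ht => h1 ht⟩
  · exact ⟨1, one_pos, fun s hs => by linarith [hs.1, hs.2]⟩

/-- in every subwindow of a quiet window there is a time with small `beta` -/
theorem exists_good_time (hC : Calc) {a δ' : ℝ} (ha : 0 < a) (hδ' : 0 < δ') :
    ∃ δ > 0, ∀ w I A, IsARFlow w I A → ∀ (z : E3) (r t : ℝ), 0 < r → Icc (t - r ^ 2) t ⊆ I →
      bbar w z r t < δ → ∀ b, a ≤ b → 2 * b ≤ 1 / 2 →
        ∃ s ∈ Icc b (2 * b), NearPl (ar (w (t - s * r ^ 2))) z r 10 δ' := by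
  obtain ⟨κ, hκ, hk⟩ := exists_k01_ge ha
  refine ⟨κ * a * δ', by positivity, fun w I A h z r t hr hI hb b hab hb2 => ?_⟩
  have hA : 0 ≤ A := by linarith [h.one_le]
  have hm : MapsTo (fun s : ℝ => t - s * r ^ 2) (Icc 0 1) (Icc (t - r ^ 2) t) := fun s hs =>
    ⟨by nlinarith [hs.2, sq_nonneg r], by nlinarith [hs.1, sq_nonneg r]⟩
  have hc : ContinuousOn (fun s => k01 s * beta (ar (w (t - s * r ^ 2))) z r 10) (Icc 0 1) :=
    continuous_k01.continuousOn.mul ((continuousOn_beta_Icc hC h z hr (by norm_num) hI).comp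
      (by fun_prop) hm)
  have hsub : Icc b (2 * b) ⊆ Icc (0 : ℝ) 1 := Icc_subset_Icc (by linarith) (by linarith)
  by_contra hne
  push Not at hne
  have h1 : ∀ s ∈ Icc b (2 * b), κ * δ' ≤ k01 s * beta (ar (w (t - s * r ^ 2))) z r 10 := by
    intro s hs
    refine mul_le_mul (hk s ⟨by linarith [hs.1], by linarith [hs.2]⟩) (not_lt.1 fun h' => ?_)
      hδ'.le (k01_nonneg s)
    exact hne s hs (nearPl_of_lt (h.ratio _ (hI (hm (hsub hs)))) hA hr (by norm_num) h')
  have h2 : ∫ s in Icc b (2 * b), κ * δ'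
      ≤ ∫ s in Icc b (2 * b), k01 s * beta (ar (w (t - s * r ^ 2))) z r 10 :=
    setIntegral_mono_on (integrableOn_const isCompact_Icc.measure_lt_top.ne)
      ((hc.mono hsub).integrableOn_compact isCompact_Icc) measurableSet_Icc h1
  have h3 : ∫ s in Icc b (2 * b), k01 s * beta (ar (w (t - s * r ^ 2))) z r 10
      ≤ ∫ s in Icc 0 1, k01 s * beta (ar (w (t - s * r ^ 2))) z r 10 :=
    setIntegral_mono_set (hc.integrableOn_compact isCompact_Icc)
      (Eventually.of_forall fun s => mul_nonneg (k01_nonneg s) (beta_nonneg _ _ _ _))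
      hsub.eventuallyLE
  rw [setIntegral_eq_integral_of_forall_compl_eq_zero (s := Icc 0 1) fun s hs => by
    rw [k01_eq_zero hs, zero_mul]] at h3
  rw [setIntegral_const, Real.volume_real_Icc_of_le (by linarith), smul_eq_mul] at h2
  have h4 : a * (κ * δ') ≤ (2 * b - b) * (κ * δ') :=
    mul_le_mul_of_nonneg_right (by linarith) (by positivity)
  unfold bbar at hb
  linarith

end Vale.Agent.P218UG
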