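import Vale.Agent.P218UG.FlowB
import Vale.Agent.P218UA.Props

/-! Graphs: area formula, geometry, the graphical flow equation, charts. -/

open MeasureTheory Set Filter Topology Metric
open scoped ENNReal RealInnerProductSpace ContDiff

namespace Vale.Agent.P218UG

open P218UA
open Vale.Agent.P218.H63 (lap hessSq)

variable {Q : E3 ≃ₗᵢ[ℝ] E3} {p : E3}

lemma normDet_graph (L : E2 →L[ℝ] ℝ) (v : E2) (hv : ∀ a, L a = ⟪v, a⟫) :
    (((lin Q).comp ((ContinuousLinearMap.id ℝ E2).prod L) : E2 →L[ℝ] E3) : E2 →ₗ[ℝ] E3).normDet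
      = √(1 + ‖v‖ ^ 2) := by
  rw [P218GA.normDet_eq_sqrt _ (EuclideanSpace.basisFun (Fin 2) ℝ), Matrix.det_fin_two]
  congr 1
  simp only [Matrix.gram_apply, ContinuousLinearMap.coe_coe, ContinuousLinearMap.comp_apply,
    ContinuousLinearMap.prod_apply, ContinuousLinearMap.id_apply, inner_lin, hv,
    ← real_inner_self_eq_norm_sq, inner2]
  simp
  ring

/-- the area formula for graphs -/
theorem lintegral_graph {u : E2 → ℝ} {O s : Set E2} (hO : IsOpen O) (hu : ContDiffOn ℝ 1 u O)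
    (hs : MeasurableSet s) (hsO : s ⊆ O) (f : E3 → ℝ≥0∞) :
    ∫⁻ x in (fun ξ => pt Q p ξ (u ξ)) '' s, f x ∂μHE[2]
      = ∫⁻ ξ in s, f (pt Q p ξ (u ξ)) * ENNReal.ofReal √(1 + ‖gradient u ξ‖ ^ 2) := by
  have hd : ∀ ξ ∈ O, fderiv ℝ (fun ζ => pt Q p ζ (u ζ)) ξ
      = (lin Q).comp ((ContinuousLinearMap.id ℝ E2).prod (fderiv ℝ u ξ)) := fun ξ hξ =>
    (hasFDerivAt_graph ((hu.contDiffAt (hO.mem_nhds hξ)).differentiableAt (by norm_num))).fderiv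
  have hinj : Function.Injective fun ζ => pt Q p ζ (u ζ) := fun a b h => by
    have h' : pt Q p a (u a) = pt Q p b (u b) := h
    rw [← hor_pt (Q := Q) (p := p) a (u a), h', hor_pt]
  have h1 := (P218GA.isJac_volume (U := E2) (V := E3) (m := 2) (by simp)).lintegral_image
    (f := fun ζ => pt Q p ζ (u ζ)) hO
    (contDiff_pt.comp_contDiffOn (contDiffOn_id.prodMk hu)) (fun ξ hξ a b h => by
      rw [hd ξ hξ] at h
      have := congrArg (hor Q) h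
      simpa only [ContinuousLinearMap.comp_apply, hor_lin, ContinuousLinearMap.prod_apply,
        ContinuousLinearMap.id_apply] using this) hs hsO hinj.injOn f
  have hc : (P218GA.cH 2 : ℝ≥0∞) ≠ 0 := by exact_mod_cast (P218GA.cH_pos 2).ne'
  rw [P218GA.hausdorff_eq_smul, Measure.restrict_smul, lintegral_smul_measure] at h1
  rw [← ENNReal.mul_right_inj hc ENNReal.coe_ne_top]
  refine Eq.trans h1 ?_
  rw [← lintegral_const_mul' _ _ ENNReal.coe_ne_top]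
  refine setLIntegral_congr_fun hs fun ξ hξ => ?_
  rw [hd ξ (hsO hξ), normDet_graph _ _ (fderiv_eq_inner u ξ),
    ENNReal.ofReal_mul (P218GA.cH 2).coe_nonneg, ENNReal.ofReal_coe_nnreal]
  ring

lemma cyl_inter {M : Set E3} {R h : ℝ} {u : E2 → ℝ} (hG : IsGraph M Q p R h u) :
    {x | ∃ ξ s, ‖ξ‖ < R ∧ |s| < h ∧ x = pt Q p ξ s} ∩ M
      = (fun ξ => pt Q p ξ (u ξ)) '' ball 0 R := by
  ext x
  constructor
  · rintro ⟨⟨ξ, s, h1, h2, rfl⟩, h3⟩
    exact ⟨ξ, mem_ball_zero_iff.2 h1, by rw [((hG ξ h1).2 s h2).1 h3]⟩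
  · rintro ⟨ξ, h1, rfl⟩
    have h2 := hG ξ (mem_ball_zero_iff.1 h1)
    exact ⟨⟨ξ, _, mem_ball_zero_iff.1 h1, h2.1, rfl⟩, (h2.2 _ h2.1).2 rfl⟩

theorem graph_area {w : E3 → ℝ} {R h : ℝ} {u : E2 → ℝ} (hG : IsGraph {x | w x = 0} Q p R h u)
    (hu : ContDiffOn ℝ 1 u (ball 0 R)) (f : E3 → ℝ≥0∞) :
    ∫⁻ x in {x | ∃ ξ s, ‖ξ‖ < R ∧ |s| < h ∧ x = pt Q p ξ s}, f x ∂(ar w)
      = ∫⁻ ξ in ball (0 : E2) R,
        f (pt Q p ξ (u ξ)) * ENNReal.ofReal √(1 + ‖gradient u ξ‖ ^ 2) := by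
  rw [ar, Measure.restrict_restrict (isOpen_cyl Q p R h).measurableSet, cyl_inter hG]
  exact lintegral_graph isOpen_ball hu measurableSet_ball Subset.rfl f

/-- the first derivative of the identity `w (pt ζ (u ζ)) = 0` -/
lemma inner_grad_tangent {w : E3 → ℝ} {u : E2 → ℝ} {ξ : E2}
    (hw : DifferentiableAt ℝ w (pt Q p ξ (u ξ))) (hu : DifferentiableAt ℝ u ξ)
    (h0 : ∀ᶠ ζ in 𝓝 ξ, w (pt Q p ζ (u ζ)) = 0) (a : E2) :
    ⟪gradient w (pt Q p ξ (u ξ)), lin Q (a, ⟪gradient u ξ, a⟫)⟫ = 0 := by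
  have h1 := hw.hasFDerivAt.comp ξ (hasFDerivAt_graph hu)
  have h2 : HasFDerivAt (w ∘ fun ζ => pt Q p ζ (u ζ)) (0 : E2 →L[ℝ] ℝ) ξ :=
    (hasFDerivAt_const 0 ξ).congr_of_eventuallyEq h0
  have h3 := congrArg (fun L : E2 →L[ℝ] ℝ => L a) (h1.unique h2)
  rw [P218GA.inner_grad, ← fderiv_eq_inner]
  exact h3

lemma unit_normal {g : E3} (hg : ‖g‖ = 1) {v : E2} (h : ∀ a, ⟪g, lin Q (a, ⟪v, a⟫)⟫ = 0) :
    ∃ σ : ℝ, (σ = 1 ∨ σ = -1) ∧ g = (σ / √(1 + ‖v‖ ^ 2)) • lin Q (-v, 1) := by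
  obtain ⟨b, c, rfl⟩ : ∃ b c, g = lin Q (b, c) := ⟨_, _, (lin_hor Q g).symm⟩
  have h1 : b = -(c • v) := by
    refine ext_inner_right ℝ fun a => ?_
    have := h a
    rw [inner_lin] at this
    rw [inner_neg_left, real_inner_smul_left]
    simp only at this
    linarith
  have h2 := norm_lin_sq (Q := Q) (b, c)
  rw [hg, h1] at h2
  simp only [norm_neg, norm_smul, mul_pow, Real.norm_eq_abs, sq_abs] at h2
  have hW : 0 < √(1 + ‖v‖ ^ 2) := Real.sqrt_pos.2 (by positivity)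
  refine ⟨c * √(1 + ‖v‖ ^ 2), ?_, ?_⟩
  · rw [← sq_eq_one_iff, mul_pow, Real.sq_sqrt (by positivity)]
    linarith
  · rw [mul_div_assoc, div_self hW.ne', mul_one, ← map_smul, h1]
    simp

/-- an algebraic identity for the trace -/
lemma trace_graph (B : E3 →L[ℝ] E3) (v : E2) :
    (1 + ‖v‖ ^ 2) * trL E3 B = (1 + ‖v‖ ^ 2) *
      (∑ i, ⟪B (lin Q (EuclideanSpace.single i 1, v i)), lin Q (EuclideanSpace.single i 1, v i)⟫)
      - ⟪B (lin Q (v, ⟪v, v⟫)), lin Q (v, ⟪v, v⟫)⟫ + ⟪B (lin Q (-v, 1)), lin Q (-v, 1)⟫ := by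
  have h1 : trL E3 B
      = ∑ i, ⟪Q (EuclideanSpace.single i 1), B (Q (EuclideanSpace.single i 1))⟫ := by
    have := LinearMap.trace_eq_sum_inner B.toLinearMap ((EuclideanSpace.basisFun (Fin 3) ℝ).map Q)
    simp only [OrthonormalBasis.map_apply, EuclideanSpace.basisFun_apply] at this
    exact this
  have h2 : ∀ (a : E2) (c : ℝ), lin Q (a, c) = a 0 • Q (EuclideanSpace.single 0 1)
      + a 1 • Q (EuclideanSpace.single 1 1) + c • Q (EuclideanSpace.single 2 1) := by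
    intro a c
    rw [lin_apply, ← map_smul, ← map_smul, ← map_smul, ← map_add, ← map_add]
    congr 1
    ext i; fin_cases i <;> simp
  rw [h1, Fin.sum_univ_three, Fin.sum_univ_two, ← real_inner_self_eq_norm_sq, inner2]
  simp only [h2]
  generalize Q (EuclideanSpace.single 0 1) = b0
  generalize Q (EuclideanSpace.single 1 1) = b1
  generalize Q (EuclideanSpace.single 2 1) = b2
  simp only [map_add, map_smul, inner_add_left, inner_add_right, real_inner_smul_left,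
    real_inner_smul_right, real_inner_comm]
  simp
  ring

lemma lap_E2 (u : E2 → ℝ) (ξ : E2) : lap u ξ = ∑ i, ⟪fderiv ℝ (gradient u) ξ
    (EuclideanSpace.single i 1), EuclideanSpace.single i 1⟫ := by
  have h1 := LinearMap.trace_eq_sum_inner (fderiv ℝ (gradient u) ξ).toLinearMap
    (EuclideanSpace.basisFun (Fin 2) ℝ)
  simp only [EuclideanSpace.basisFun_apply] at h1
  simp only [real_inner_comm]
  exact h1

theorem graph_geom {w : E3 → ℝ} (hw : IsSurf w) {u : E2 → ℝ} {ξ : E2} (hu : ContDiffAt ℝ 2 u ξ)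
    (h0 : ∀ᶠ ζ in 𝓝 ξ, w (pt Q p ζ (u ζ)) = 0) : ∃ σ : ℝ, (σ = 1 ∨ σ = -1) ∧
      gradient w (pt Q p ξ (u ξ)) = (σ / √(1 + ‖gradient u ξ‖ ^ 2)) • lin Q (-gradient u ξ, 1) ∧
      lap w (pt Q p ξ (u ξ)) = -σ * gmc u ξ / √(1 + ‖gradient u ξ‖ ^ 2) ∧
      ∀ a b : E2, ⟪hs w (pt Q p ξ (u ξ)) (lin Q (a, ⟪gradient u ξ, a⟫)),
          lin Q (b, ⟪gradient u ξ, b⟫)⟫
        = -σ * ⟪fderiv ℝ (gradient u) ξ a, b⟫ / √(1 + ‖gradient u ξ‖ ^ 2) := by
  have hu1 : DifferentiableAt ℝ u ξ := hu.differentiableAt (by norm_num)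
  obtain ⟨σ, hσ, hg⟩ := unit_normal (surf_unit hw h0.self_of_nhds)
    (inner_grad_tangent (surf_diff hw _) hu1 h0)
  have hW : 0 < √(1 + ‖gradient u ξ‖ ^ 2) := Real.sqrt_pos.2 (by positivity)
  have h2 : ∀ a b : E2, ⟪hs w (pt Q p ξ (u ξ)) (lin Q (a, ⟪gradient u ξ, a⟫)),
      lin Q (b, ⟪gradient u ξ, b⟫)⟫
        = -σ * ⟪fderiv ℝ (gradient u) ξ a, b⟫ / √(1 + ‖gradient u ξ‖ ^ 2) := by
    intro a b
    have a1 := (surf_grad_diff hw _).hasFDerivAt.comp ξ (hasFDerivAt_graph (Q := Q) (p := p) hu1)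
    have a2 : HasFDerivAt (gradient u) (fderiv ℝ (gradient u) ξ) ξ :=
      ((contDiffAt_grad' (m := 1) le_rfl hu).differentiableAt (by norm_num)).hasFDerivAt
    have a3 := (lin Q).hasFDerivAt.comp ξ ((hasFDerivAt_const b ξ).prodMk
      (a2.inner ℝ (hasFDerivAt_const b ξ)))
    have a4 := a1.inner ℝ a3
    have a5 := (hasFDerivAt_const (𝕜 := ℝ) (0 : ℝ) ξ).congr_of_eventuallyEq (f₁ := fun ζ =>
        ⟪gradient w (pt Q p ζ (u ζ)), lin Q (b, ⟪gradient u ζ, b⟫)⟫) (by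
      filter_upwards [h0.eventually_nhds, hu.eventually (by simp)] with ζ b1 b2
      exact inner_grad_tangent (surf_diff hw _) (b2.differentiableAt (by norm_num)) b1 b)
    have a6 := congrArg (fun L : E2 →L[ℝ] ℝ => L a) (a4.unique a5)
    simp only [ContinuousLinearMap.comp_apply, fderivInnerCLM_apply, ContinuousLinearMap.prod_apply,
      zero_apply, Function.comp_apply, inner_zero_right, zero_add, ContinuousLinearMap.id_apply,
      fderiv_eq_inner] at a6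
    rw [hg, real_inner_smul_left, inner_lin] at a6
    simp only [inner_zero_right, zero_add, one_mul] at a6
    unfold hs
    rw [neg_mul, neg_div, mul_div_right_comm]
    linarith
  refine ⟨σ, hσ, hg, ?_, h2⟩
  have hσ0 : σ ≠ 0 := by rcases hσ with rfl | rfl <;> norm_num
  have h3 := trace_graph (Q := Q) (hs w (pt Q p ξ (u ξ))) (gradient u ξ)
  have h4 : ⟪hs w (pt Q p ξ (u ξ)) (lin Q (-gradient u ξ, 1)), lin Q (-gradient u ξ, 1)⟫ = 0 := by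
    have := inner_hs_grad hw h0.self_of_nhds (lin Q (-gradient u ξ, 1))
    rw [hg, real_inner_smul_right] at this
    exact (mul_eq_zero.1 this).resolve_left (div_ne_zero hσ0 hW.ne')
  have h5 : ∀ i, gradient u ξ i = ⟪gradient u ξ, EuclideanSpace.single i 1⟫ := fun i => by
    rw [EuclideanSpace.inner_single_right]; simp
  simp only [h5, h2, h4] at h3
  have h6 : lap w (pt Q p ξ (u ξ)) = trL E3 (hs w (pt Q p ξ (u ξ))) := rfl
  have h7 : 0 < 1 + ‖gradient u ξ‖ ^ 2 := by positivity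
  rw [h6, gmc, lap_E2, ← mul_right_inj' h7.ne', h3, Fin.sum_univ_two, Fin.sum_univ_two]
  field_simp
  ring

theorem graph_eqn {w : ℝ → E3 → ℝ} {I : Set ℝ} (hw : IsFlow w I) {u : ℝ → E2 → ℝ} {t : ℝ}
    (ht : t ∈ I) {ξ : E2} (hu : ContDiffAt ℝ 2 (fun q : ℝ × E2 => u q.1 q.2) (t, ξ))
    (h0 : ∀ᶠ q : ℝ × E2 in 𝓝 (t, ξ), w q.1 (pt Q p q.2 (u q.1 q.2)) = 0) :
    deriv (fun s => u s ξ) t = gmc (u t) ξ := by
  have hu1 : ContDiffAt ℝ 2 (u t) ξ :=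
    ContDiffAt.comp ξ (g := fun q : ℝ × E2 => u q.1 q.2) (f := fun ζ : E2 => (t, ζ)) hu
      (by fun_prop)
  have hu2 : DifferentiableAt ℝ (fun s => u s ξ) t :=
    (ContDiffAt.comp t (g := fun q : ℝ × E2 => u q.1 q.2) (f := fun s : ℝ => (s, ξ)) hu
      (by fun_prop)).differentiableAt (by norm_num)
  obtain ⟨σ, hσ, h1, h2, -⟩ := graph_geom (Q := Q) (p := p) (flow_slice hw ht) hu1
    ((Continuous.prodMk_right t).continuousAt.eventually h0)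
  obtain ⟨y, hy⟩ : ∃ y, y = pt Q p ξ (u t ξ) := ⟨_, rfl⟩
  have hd := ((flow_cd hw ht y).differentiableAt (by simp)).hasFDerivAt
  obtain ⟨D, hD⟩ : ∃ D, D = fderiv ℝ (fun p : ℝ × E3 => w p.1 p.2) (t, y) := ⟨_, rfl⟩
  rw [← hD] at hd
  have a1 : HasDerivAt (fun s => w s y) (D (1, 0)) t :=
    HasFDerivAt.comp_hasDerivAt (f := fun s : ℝ => (s, y)) t hd
      ((hasDerivAt_id t).prodMk (hasDerivAt_const t y))
  have a2 : ∀ v, D (0, v) = ⟪gradient (w t) y, v⟫ := fun v => by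
    have := (hd.comp y (hasFDerivAt_prodMk_right t y)).fderiv
    rw [P218GA.inner_grad]
    exact (congrArg (fun L : E3 →L[ℝ] ℝ => L v) this).symm
  have a3 : HasDerivAt (fun s => pt Q p ξ (u s ξ)) (deriv (fun s => u s ξ) t • nQ Q) t :=
    HasDerivAt.scomp (h := fun s => u s ξ) t (hasDerivAt_pt ξ (u t ξ)) hu2.hasDerivAt
  have a4 : HasDerivAt (fun s => w s (pt Q p ξ (u s ξ)))
      (D (1, deriv (fun s => u s ξ) t • nQ Q)) t := by
    rw [hy] at hd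
    exact HasFDerivAt.comp_hasDerivAt (f := fun s : ℝ => (s, pt Q p ξ (u s ξ))) t hd
      ((hasDerivAt_id t).prodMk a3)
  have a5 : HasDerivAt (fun s => w s (pt Q p ξ (u s ξ))) 0 t :=
    (hasDerivAt_const t 0).congr_of_eventuallyEq
      ((Continuous.prodMk_left ξ).continuousAt.eventually h0)
  have a6 := a4.unique a5
  rw [show ((1 : ℝ), deriv (fun s => u s ξ) t • nQ Q)
    = (1, 0) + (0, deriv (fun s => u s ξ) t • nQ Q) by simp, map_add, ← a1.deriv, a2,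
    hw.eqn t ht y (hy ▸ h0.self_of_nhds), hy, h1, h2, real_inner_smul_left,
    real_inner_smul_right, inner_lin_nQ] at a6
  have hW : 0 < √(1 + ‖gradient (u t) ξ‖ ^ 2) := Real.sqrt_pos.2 (by positivity)
  have hσ0 : σ ≠ 0 := by rcases hσ with rfl | rfl <;> norm_num
  field_simp at a6
  have a7 : σ * (deriv (fun s => u s ξ) t - gmc (u t) ξ) = 0 := by linarith
  exact sub_eq_zero.1 ((mul_eq_zero.1 a7).resolve_left hσ0)

/-- the defining function in a frame -/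
lemma cd_frame {w : ℝ → E3 → ℝ} {I : Set ℝ} (hw : IsFlow w I) {q : ℝ × E2} (hq : q.1 ∈ I) (s : ℝ) :
    ContDiffAt ℝ ∞ (fun z : (ℝ × E2) × ℝ => w z.1.1 (pt Q p z.1.2 z.2)) (q, s) :=
  ContDiffAt.comp (q, s) (g := fun p : ℝ × E3 => w p.1 p.2)
    (f := fun z : (ℝ × E2) × ℝ => (z.1.1, pt Q p z.1.2 z.2)) (flow_cd hw hq _)
    (contDiffAt_fst.fst.prodMk (contDiff_pt.contDiffAt.comp (q, s)
      (contDiffAt_fst.snd.prodMk contDiffAt_snd)))

lemma hasDerivAt_vert {W : E3 → ℝ} (hW : IsSurf W) (ξ : E2) (s : ℝ) :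
    HasDerivAt (fun s => W (pt Q p ξ s)) ⟪gradient W (pt Q p ξ s), nQ Q⟫ s := by
  rw [P218GA.inner_grad]
  exact HasFDerivAt.comp_hasDerivAt (f := fun s => pt Q p ξ s) s (surf_diff hW _).hasFDerivAt
    (hasDerivAt_pt ξ s)

lemma fderiv_frame {w : ℝ → E3 → ℝ} {I : Set ℝ} (hw : IsFlow w I) {q : ℝ × E2} (hq : q.1 ∈ I)
    (s : ℝ) : fderiv ℝ (fun z : (ℝ × E2) × ℝ => w z.1.1 (pt Q p z.1.2 z.2)) (q, s) (0, 1)
      = ⟪gradient (w q.1) (pt Q p q.2 s), nQ Q⟫ :=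
  (HasFDerivAt.comp_hasDerivAt (f := fun s : ℝ => (q, s)) s
    ((cd_frame hw hq s).differentiableAt (by simp)).hasFDerivAt
    ((hasDerivAt_const s q).prodMk (hasDerivAt_id s))).unique
    (hasDerivAt_vert (Q := Q) (p := p) (flow_slice hw hq) q.2 s)

lemma cont_tilt {w : ℝ → E3 → ℝ} {I : Set ℝ} (hw : IsFlow w I) {q : ℝ × E2} (hq : q.1 ∈ I)
    (s : ℝ) : ContinuousAt
      (fun z : (ℝ × E2) × ℝ => ⟪gradient (w z.1.1) (pt Q p z.1.2 z.2), nQ Q⟫) (q, s) := by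
  have a0 : Continuous fun z : E2 × ℝ => pt Q p z.1 z.2 := (contDiff_pt (k := 0)).continuous
  have a1 : Continuous fun z : (ℝ × E2) × ℝ => (z.1.1, pt Q p z.1.2 z.2) :=
    continuous_fst.fst.prodMk (a0.comp (continuous_fst.snd.prodMk continuous_snd))
  have a2 : ContinuousAt (fun z : (ℝ × E2) × ℝ => gradient (w z.1.1) (pt Q p z.1.2 z.2)) (q, s) :=
    ContinuousAt.comp (g := fun p : ℝ × E3 => gradient (w p.1) p.2)
      (f := fun z : (ℝ × E2) × ℝ => (z.1.1, pt Q p z.1.2 z.2))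
      (flow_grad hw hq (pt Q p q.2 s)).continuousAt a1.continuousAt
  exact a2.inner continuousAt_const

/-- the slope of a graph in terms of the tilt of the normal -/
lemma slope_of_tilt {W : E3 → ℝ} (hW : IsSurf W) {u : E2 → ℝ} {ξ : E2}
    (hu : DifferentiableAt ℝ u ξ) (h0 : ∀ᶠ ζ in 𝓝 ξ, W (pt Q p ζ (u ζ)) = 0) :
    ⟪gradient W (pt Q p ξ (u ξ)), nQ Q⟫ ^ 2 * (1 + ‖gradient u ξ‖ ^ 2) = 1 := by
  obtain ⟨σ, hσ, hg⟩ := unit_normal (surf_unit hW h0.self_of_nhds)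
    (inner_grad_tangent (surf_diff hW _) hu h0)
  have h7 : 0 < 1 + ‖gradient u ξ‖ ^ 2 := by positivity
  rw [hg, real_inner_smul_left, inner_lin_nQ, mul_one, div_pow, Real.sq_sqrt h7.le,
    div_mul_cancel₀ _ h7.ne']
  rcases hσ with rfl | rfl <;> norm_num

theorem graph_chart {w : ℝ → E3 → ℝ} {I : Set ℝ} (hw : IsFlow w I) {t₀ : ℝ} (ht₀ : t₀ ∈ I)
    {x₀ : E3} (hx₀ : w t₀ x₀ = 0) {η : ℝ} (hη : 0 < η) :
    ∃ (Q : E3 ≃ₗᵢ[ℝ] E3) (R h τ : ℝ) (u : ℝ → E2 → ℝ), 0 < R ∧ 0 < h ∧ 0 < τ ∧ R < η ∧ h < η ∧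
      Ioo (t₀ - τ) (t₀ + τ) ⊆ I ∧
      ContDiffOn ℝ ∞ (fun q : ℝ × E2 => u q.1 q.2) (Ioo (t₀ - τ) (t₀ + τ) ×ˢ ball 0 R) ∧
      ∀ t ∈ Ioo (t₀ - τ) (t₀ + τ), IsGraph {x | w t x = 0} Q x₀ R h (u t) ∧
        ∀ ξ ∈ ball (0 : E2) R, ‖gradient (u t) ξ‖ ≤ η := by
  obtain ⟨Q, hQ⟩ := exists_frame (surf_unit (flow_slice hw ht₀) hx₀)
  obtain ⟨f, hf⟩ : ∃ f : (ℝ × E2) × ℝ → ℝ, f = fun z => w z.1.1 (pt Q x₀ z.1.2 z.2) := ⟨_, rfl⟩
  obtain ⟨c, hc⟩ : ∃ c, c = 1 / √(1 + η ^ 2) := ⟨_, rfl⟩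
  have hW : 1 < √(1 + η ^ 2) := Real.lt_sqrt_of_sq_lt (by nlinarith [sq_pos_of_pos hη])
  have hc0 : 0 < c := by rw [hc]; positivity
  have hc1 : c < 1 := by rw [hc, div_lt_one (by linarith)]; exact hW
  have hc2 : c ^ 2 * (1 + η ^ 2) = 1 := by
    rw [hc, div_pow, Real.sq_sqrt (by positivity)]; field_simp
  have e0 : pt Q x₀ 0 0 = x₀ := by
    rw [pt_eq, show ((0 : E2), (0 : ℝ)) = 0 from rfl, map_zero, add_zero]
  have h1 : ∀ᶠ z : (ℝ × E2) × ℝ in 𝓝 ((t₀, 0), 0), z.1.1 ∈ I ∧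
      c < ⟪gradient (w z.1.1) (pt Q x₀ z.1.2 z.2), nQ Q⟫ := by
    refine (continuousAt_fst.fst.eventually (hw.isOpen.mem_nhds ht₀)).and
      ((cont_tilt hw (q := (t₀, 0)) ht₀ 0).eventually (lt_mem_nhds ?_))
    simp only [e0, ← hQ]
    rw [real_inner_self_eq_norm_sq, norm_nQ]
    linarith
  obtain ⟨δ, hδ, h2⟩ := Metric.eventually_nhds_iff.1 h1
  obtain ⟨h, hh⟩ : ∃ h, h = min δ η / 2 := ⟨_, rfl⟩
  have hh0 : 0 < h := by rw [hh]; positivity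
  have hh1 : h < δ := by rw [hh]; linarith [min_le_left δ η]
  have hh2 : h < η := by rw [hh]; linarith [min_le_right δ η]
  have h3 : ∀ q : ℝ × E2, dist q (t₀, 0) < δ → ∀ s ∈ Icc (-h) h, q.1 ∈ I ∧
      c < ⟪gradient (w q.1) (pt Q x₀ q.2 s), nQ Q⟫ := fun q hq s hs =>
    h2 (y := (q, s)) (by
      rw [Prod.dist_eq, max_lt_iff, Real.dist_eq, sub_zero]
      exact ⟨hq, (abs_le.2 hs).trans_lt hh1⟩)
  have h0I : (0 : ℝ) ∈ Icc (-h) h := ⟨by linarith, hh0.le⟩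
  have hmono : ∀ q : ℝ × E2, dist q (t₀, 0) < δ →
      StrictMonoOn (fun s => f (q, s)) (Icc (-h) h) := fun q hq => by
    have a1 := fun s => hasDerivAt_vert (Q := Q) (p := x₀) (flow_slice hw (h3 q hq 0 h0I).1) q.2 s
    rw [hf]
    exact strictMonoOn_of_deriv_pos (convex_Icc _ _)
      (fun s _ => (a1 s).continuousAt.continuousWithinAt) fun s hs => by
        rw [(a1 s).deriv]
        exact hc0.trans (h3 q hq s (interior_subset hs)).2
  have hf0 : f ((t₀, 0), 0) = 0 := by rw [hf]; simpa only [e0] using hx₀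
  have hcf : ∀ q : ℝ × E2, q.1 ∈ I → ∀ s, ContDiffAt ℝ ∞ f (q, s) := fun q hq s =>
    hf ▸ cd_frame hw hq s
  have hcs : ∀ s, ContinuousAt (fun q : ℝ × E2 => f (q, s)) (t₀, 0) := fun s =>
    ContinuousAt.comp (f := fun q : ℝ × E2 => (q, s)) (hcf _ ht₀ s).continuousAt (by fun_prop)
  have h4 : ∀ᶠ q : ℝ × E2 in 𝓝 (t₀, 0), f (q, -h) < 0 ∧ 0 < f (q, h) := by
    have a1 := hmono (t₀, 0) (by simpa using hδ)
    refine ((hcs _).eventually (gt_mem_nhds ?_)).and ((hcs _).eventually (lt_mem_nhds ?_))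
    · exact hf0 ▸ a1 (left_mem_Icc.2 (by linarith)) h0I (by linarith)
    · exact hf0 ▸ a1 h0I (right_mem_Icc.2 (by linarith)) hh0
  obtain ⟨δ', hδ', h5⟩ := Metric.eventually_nhds_iff.1 h4
  obtain ⟨R, hR⟩ : ∃ R, R = min δ' h / 2 := ⟨_, rfl⟩
  have hR0 : 0 < R := by rw [hR]; positivity
  have hR1 : R < δ' := by rw [hR]; linarith [min_le_left δ' h]
  have hR2 : R < h := by rw [hR]; linarith [min_le_right δ' h]
  have hK : ∀ q ∈ Ioo (t₀ - R) (t₀ + R) ×ˢ ball (0 : E2) R, dist q (t₀, 0) < R := fun q hq => by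
    rw [Prod.dist_eq, max_lt_iff, Real.dist_eq, abs_lt]
    exact ⟨⟨by linarith [hq.1.1], by linarith [hq.1.2]⟩, hq.2⟩
  have hKδ := fun q hq => (hK q hq).trans (hR2.trans hh1)
  have hKI := fun q hq => (h3 q (hKδ q hq) 0 h0I).1
  have hK5 := fun q hq => h5 ((hK q hq).trans hR1)
  obtain ⟨u, hu⟩ := exists_graph_of_unique (f := f) (n := ∞) (by simp) (a := -h) (b := h)
    (fun q hq s _ => hcf q (hKI q hq) s) (fun q hq => (hK5 q hq).1.ne)
    (fun q hq => (hK5 q hq).2.ne') (fun q hq s hs _ => by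
      rw [hf, fderiv_frame hw (hKI q hq)]
      exact (hc0.trans (h3 q (hKδ q hq) s hs).2).ne') (fun q hq => by
      have a1 : ContinuousOn (fun s => f (q, s)) (Icc (-h) h) := fun s _ =>
        (ContinuousAt.comp (f := fun s : ℝ => (q, s)) (hcf q (hKI q hq) s).continuousAt
          (by fun_prop)).continuousWithinAt
      obtain ⟨s, hs, hs0⟩ := intermediate_value_Icc (by linarith) a1
        ⟨(hK5 q hq).1.le, (hK5 q hq).2.le⟩
      exact ⟨s, ⟨hs, hs0⟩, fun s' hs' => (hmono q (hKδ q hq)).injOn hs'.1 hs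
        (hs'.2.trans hs0.symm)⟩)
  refine ⟨Q, R, h, R, fun t ξ => u (t, ξ), hR0, hh0, hR0, hR2.trans hh2, hh2,
    fun t ht => hKI (t, 0) ⟨ht, mem_ball_self hR0⟩, fun q hq => (hu q hq).1.contDiffWithinAt,
    fun t ht => ⟨fun ξ hξ => ?_, fun ξ hξ => ?_⟩⟩
  · have hq : (t, ξ) ∈ Ioo (t₀ - R) (t₀ + R) ×ˢ ball (0 : E2) R := ⟨ht, mem_ball_zero_iff.2 hξ⟩
    have a1 := (hu _ hq).2.self_of_nhds
    have a2 := (a1 _).2 rfl
    refine ⟨abs_lt.2 ⟨lt_of_le_of_ne a2.1.1 fun e => (hK5 _ hq).1.ne (e ▸ a2.2),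
      lt_of_le_of_ne a2.1.2 fun e => (hK5 _ hq).2.ne' (e ▸ a2.2)⟩, fun s hs => ?_⟩
    rw [eq_comm, ← a1 s, hf]
    exact ⟨fun a3 => ⟨abs_le.1 hs.le, a3⟩, fun a3 => a3.2⟩
  · have hq : (t, ξ) ∈ Ioo (t₀ - R) (t₀ + R) ×ˢ ball (0 : E2) R := ⟨ht, hξ⟩
    have a1 : DifferentiableAt ℝ (fun ξ => u (t, ξ)) ξ :=
      (ContDiffAt.comp ξ (f := fun ζ : E2 => (t, ζ)) (hu _ hq).1
        (by fun_prop)).differentiableAt (by simp)
    have a2 := slope_of_tilt (Q := Q) (p := x₀) (flow_slice hw (hKI _ hq)) a1 (by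
      filter_upwards [(Continuous.prodMk_right t).continuousAt.eventually (hu _ hq).2] with ζ hζ
      have := ((hζ _).2 rfl).2
      rwa [hf] at this)
    have a3 := (h3 _ (hKδ _ hq) _ (((hu _ hq).2.self_of_nhds _).2 rfl).1).2
    simp only at a2 a3
    refine abs_le_of_sq_le_sq' ?_ hη.le |>.2
    by_contra a4
    have a5 := mul_lt_mul'' (pow_lt_pow_left₀ a3 hc0.le two_ne_zero)
      (add_lt_add_right (not_le.1 a4) 1) (by positivity) (by positivity)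
    linarith

/-- **[GRAPH]** -/
theorem graph : Graph where
  area _ _ _ _ _ _ _ hG hu f _ := graph_area hG hu f
  geom _ hw _ _ _ _ hu h0 := graph_geom hw hu h0
  eqn _ _ hw _ _ _ _ ht _ hu h0 := graph_eqn hw ht hu h0
  chart _ _ hw _ ht _ hx _ hη := graph_chart hw ht hx hη

end Vale.Agent.P218UG
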