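import Vale.Agent.P218UG.Sheet
import Vale.Agent.P218UG.Beta
import Vale.Agent.P218UM.RegMass

/-! Mass ratios and Gaussian density ratios of a measure which is close to parallel planes. -/

open MeasureTheory Set Filter Topology Metric
open scoped ENNReal RealInnerProductSpace ContDiff

namespace Vale.Agent.P218UG

open P218UA P218UM

/-- the data of `NearPl` -/
structure NP (μ : Measure E3) (z : E3) (r δ : ℝ) (n : E3) {k : ℕ} (a : Fin k → ℝ) : Prop where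
  unit : ‖n‖ = 1
  pos : 0 < r
  near : ∀ φ, IsTest 10 φ → |(∫ y, φ (r⁻¹ • (y - z)) ∂μ) / r ^ 2 - ∫ y, φ y ∂(pl n a)| ≤ δ

/-- the height of `x` over the plane number `i` -/
noncomputable def ht (z : E3) (r : ℝ) (n : E3) (a : ℝ) (x : E3) : ℝ := ⟪x - z, n⟫ - r * a

variable {μ : Measure E3} {z n x : E3} {r δ ρ A : ℝ} {k : ℕ} {a : Fin k → ℝ}

lemma compact_scale {G : E3 → ℝ} {L c : ℝ} (hc : 0 < c) (h0 : ∀ v, L ≤ ‖v‖ → G v = 0) (v₀ : E3) :
    HasCompactSupport fun v : E3 => G (c⁻¹ • (v - v₀)) := by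
  refine HasCompactSupport.intro (isCompact_closedBall v₀ (L * c)) fun y hy => h0 _ ?_
  rw [mem_closedBall_iff_norm, not_le] at hy
  rw [norm_smul, norm_inv, Real.norm_eq_abs, abs_of_pos hc, ← div_eq_inv_mul, le_div_iff₀ hc]
  exact hy.le

/-- rescaled test functions -/
lemma NP.scale (h : NP μ z r δ n a) {G : E3 → ℝ} {L B : ℝ} (hG : ContDiff ℝ 1 G) (hB : 0 < B)
    (h0 : ∀ v, L ≤ ‖v‖ → G v = 0) (h1 : ∀ v, |G v| ≤ B) (h2 : ∀ v, ‖fderiv ℝ G v‖ ≤ B)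
    (hρ : 0 < ρ) (hρr : ρ ≤ r) (hx : ‖x - z‖ + L * ρ ≤ 10 * r) :
    |(∫ y, G (ρ⁻¹ • (y - x)) ∂μ) / ρ ^ 2 - ∑ i, (∫ v, G ((ρ / r)⁻¹ • (v - r⁻¹ • (x - z)))
      ∂((μHE[2] : Measure E3).restrict {v | ⟪v, n⟫ = a i})) / (ρ / r) ^ 2|
      ≤ B * (r / ρ) ^ 3 * δ := by
  have hr := h.pos
  obtain ⟨c, hc⟩ : ∃ c, c = ρ / r := ⟨_, rfl⟩
  obtain ⟨v₀, hv₀⟩ : ∃ v₀, v₀ = r⁻¹ • (x - z) := ⟨_, rfl⟩
  have hc0 : 0 < c := by rw [hc]; positivity
  have hc1 : c ≤ 1 := by rw [hc, div_le_one hr]; exact hρr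
  have hcr : c * r = ρ := by rw [hc]; field_simp
  have hs : ContDiff ℝ 1 fun v : E3 => G (c⁻¹ • (v - v₀)) := hG.comp (by fun_prop)
  have hT : IsTest 10 fun v : E3 => c / B * G (c⁻¹ • (v - v₀)) := by
    refine ⟨contDiff_const.mul hs, fun v hv => ?_, fun v => ?_, fun v => ?_⟩
    · rw [h0, mul_zero]
      have a1 : ‖v₀‖ * r = ‖x - z‖ := by
        rw [hv₀, norm_smul, norm_inv, Real.norm_eq_abs, abs_of_pos hr]; field_simp
      have a2 := norm_sub_norm_le v v₀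
      rw [norm_smul, norm_inv, Real.norm_eq_abs, abs_of_pos hc0, ← div_eq_inv_mul, le_div_iff₀ hc0]
      have a3 : L * c * r ≤ ‖v - v₀‖ * r := by
        rw [mul_assoc, hcr]
        nlinarith
      exact le_of_mul_le_mul_right a3 hr
    · rw [abs_mul, abs_of_pos (by positivity)]
      refine (mul_le_mul_of_nonneg_left (h1 _) (by positivity)).trans ?_
      rwa [div_mul_cancel₀ _ hB.ne']
    · have b1 : HasFDerivAt (fun v : E3 => c⁻¹ • (v - v₀)) (c⁻¹ • ContinuousLinearMap.id ℝ E3) v :=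
        ((hasFDerivAt_id v).sub_const v₀).const_smul c⁻¹
      have b2 := ((hG.differentiable (by norm_num) _).hasFDerivAt.comp v b1).const_mul (c / B)
      have b3 := b2.fderiv
      simp only [Function.comp_def] at b3
      rw [b3, norm_smul, Real.norm_of_nonneg (by positivity)]
      refine (mul_le_mul_of_nonneg_left ((ContinuousLinearMap.opNorm_comp_le _ _).trans
        (mul_le_mul_of_nonneg_right (h2 _) (norm_nonneg _))) (by positivity)).trans ?_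
      rw [norm_smul, ContinuousLinearMap.norm_id, norm_inv, Real.norm_of_nonneg hc0.le]
      refine le_of_eq ?_
      field_simp
  have h3 := h.near _ hT
  have e1 : ∀ y : E3, c⁻¹ • (r⁻¹ • (y - z) - v₀) = ρ⁻¹ • (y - x) := fun y => by
    rw [hv₀, ← smul_sub, sub_sub_sub_cancel_right, smul_smul, ← mul_inv, hcr]
  simp only [e1] at h3
  rw [integral_const_mul, integral_const_mul,
    integral_pl h.unit a hs.continuous (compact_scale hc0 h0 v₀)] at h3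
  rw [← hc, ← hv₀, ← Finset.sum_div]
  generalize ∫ y, G (ρ⁻¹ • (y - x)) ∂μ = X at h3 ⊢
  generalize ∑ i, ∫ v, G (c⁻¹ • (v - v₀))
    ∂((μHE[2] : Measure E3).restrict {v | ⟪v, n⟫ = a i}) = Y at h3 ⊢
  have e2 : X / ρ ^ 2 - Y / c ^ 2 = B * (r / ρ) ^ 3 * (c / B * X / r ^ 2 - c / B * Y) := by
    rw [← hcr]; field_simp
  rw [e2, abs_mul, abs_of_pos (by positivity)]
  exact mul_le_mul_of_nonneg_left h3 (by positivity)

lemma ht_scale (hr : 0 < r) (b : ℝ) : ⟪r⁻¹ • (x - z), n⟫ - b = ht z r n b x / r := by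
  rw [real_inner_smul_left, ht]; field_simp

/-- the mass ratio -/
theorem NP.mk_near (hC : CylDensStmt) (h : NP μ z r δ n a) (hρ : 0 < ρ) (hρr : ρ ≤ r)
    (hx : ‖x - z‖ + ρ ≤ 10 * r) :
    |P218UA.mk μ x ρ - ∑ i, max (1 - (ht z r n (a i) x / ρ) ^ 2) 0 ^ 4| ≤ 8 * (r / ρ) ^ 3 * δ := by
  have hr := h.pos
  have h1 := h.scale (G := kk) (L := 1) (B := 8) (contDiff_kk.of_le (by norm_num)) (by norm_num)
    (fun v hv => kk_eq_zero hv) (fun v => by
      rw [abs_of_nonneg (kk_nonneg v)]; linarith [kk_le v, four_div_pi_le])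
    norm_fderiv_kk_le hρ hρr (x := x) (by linarith)
  have h2 : ∀ i, (∫ v, kk ((ρ / r)⁻¹ • (v - r⁻¹ • (x - z)))
      ∂((μHE[2] : Measure E3).restrict {v | ⟪v, n⟫ = a i})) / (ρ / r) ^ 2
      = max (1 - (ht z r n (a i) x / ρ) ^ 2) 0 ^ 4 := fun i => by
    have h3 := ((hC n h.unit).2.2 (r⁻¹ • (x - z)) (ρ / r) (a i) (by positivity)).2
    rw [ht_scale hr, div_div_div_cancel_right₀ hr.ne'] at h3
    exact h3
  simp only [h2] at h1
  exact h1

lemma gauss_scale (hρ : 0 < ρ) (y x : E3) :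
    Real.exp (-‖ρ⁻¹ • (y - x)‖ ^ 2 / 4) = Real.exp (-‖y - x‖ ^ 2 / (4 * ρ ^ 2)) := by
  rw [norm_smul, norm_inv, Real.norm_of_nonneg hρ.le]
  congr 1
  field_simp

/-- a cut-off Gaussian -/
lemma exists_cut {L : ℝ} (hL : 0 < L) : ∃ (G : E3 → ℝ) (B : ℝ), ContDiff ℝ 1 G ∧ 0 < B ∧
    (∀ v, L ≤ ‖v‖ → G v = 0) ∧ (∀ v, |G v| ≤ B) ∧ (∀ v, ‖fderiv ℝ G v‖ ≤ B) ∧
    (∀ v, G v ≤ Real.exp (-‖v‖ ^ 2 / 4)) ∧ ∀ v, Real.exp (-‖v‖ ^ 2 / 4)
      ≤ G v + Real.exp (-L ^ 2 / 32) * Real.exp (-‖v‖ ^ 2 / 8) := by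
  let χ : ContDiffBump (0 : E3) := ⟨L / 2, L, by positivity, by linarith⟩
  have h1 : ContDiff ℝ 1 fun v : E3 => Real.exp (-‖v‖ ^ 2 / 4) * χ v :=
    ((contDiff_norm_sq ℝ).neg.div_const 4).exp.mul χ.contDiff
  have h2 : HasCompactSupport fun v : E3 => Real.exp (-‖v‖ ^ 2 / 4) * χ v :=
    χ.hasCompactSupport.mul_left
  obtain ⟨B₁, hB₁⟩ := h1.continuous.bounded_above_of_compact_support h2
  obtain ⟨B₂, hB₂⟩ := (h1.continuous_fderiv (by norm_num)).bounded_above_of_compact_support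
    (h2.fderiv ℝ)
  refine ⟨_, max 1 (max B₁ B₂), h1, by positivity, fun v hv => ?_,
    fun v => (hB₁ v).trans ((le_max_left _ _).trans (le_max_right _ _)),
    fun v => (hB₂ v).trans ((le_max_right _ _).trans (le_max_right _ _)),
    fun v => mul_le_of_le_one_right (Real.exp_pos _).le χ.le_one, fun v => ?_⟩
  · rw [χ.zero_of_le_dist (by simpa using hv), mul_zero]
  · rcases le_total ‖v‖ (L / 2) with h | h
    · rw [χ.one_of_mem_closedBall (mem_closedBall_zero_iff.2 h), mul_one]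
      exact le_add_of_nonneg_right (by positivity)
    · refine le_add_of_nonneg_of_le (mul_nonneg (Real.exp_pos _).le χ.nonneg) ?_
      rw [← Real.exp_add, Real.exp_le_exp]
      have := pow_le_pow_left₀ (by positivity) h 2
      linarith

/-- the Gaussian density ratio -/
theorem exists_gd_near (hM : Mono) (hC : CylDensStmt) (hA : 0 ≤ A) {ε : ℝ} (hε : 0 < ε) :
    ∃ L B : ℝ, 0 < L ∧ 0 < B ∧ ∀ (μ : Measure E3) (z n x : E3) (r δ ρ : ℝ) (k : ℕ)
      (a : Fin k → ℝ) (S : Finset (Fin k)), AR μ A → NP μ z r δ n a → 0 < ρ → ρ ≤ r →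
      ‖x - z‖ + L * ρ ≤ 10 * r → (∀ i ∉ S, L * ρ ≤ |ht z r n (a i) x|) →
      gd μ x ρ ≤ ∑ i ∈ S, Real.exp (-ht z r n (a i) x ^ 2 / (4 * ρ ^ 2))
        + ε + B * (r / ρ) ^ 3 * δ := by
  obtain ⟨C, hCt⟩ := hM.tail
  obtain ⟨L, hL, hL'⟩ : ∃ L : ℝ, 0 < L ∧ Real.exp (-L ^ 2 / 32) * (|C| * A) ≤ ε := by
    obtain ⟨m, hm⟩ : ∃ m, m = |C| * A / ε := ⟨_, rfl⟩
    have h0 : 0 ≤ m := by rw [hm]; positivity
    refine ⟨32 * (m + 1), by positivity, ?_⟩
    have h1 := Real.add_one_le_exp ((32 * (m + 1)) ^ 2 / 32)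
    rw [neg_div, Real.exp_neg, inv_mul_le_iff₀ (Real.exp_pos _), ← div_le_iff₀ hε, ← hm]
    nlinarith
  obtain ⟨G, B, hG, hB, g0, g1, g2, g3, g4⟩ := exists_cut hL
  refine ⟨L, B, hL, hB, fun μ z n x r δ ρ k a S hμ h hρ hρr hx hS => ?_⟩
  have hr := h.pos
  have hπ : 1 ≤ 4 * Real.pi := by linarith [Real.pi_gt_three]
  have h1 := (abs_le.1 (h.scale hG hB g0 g1 g2 hρ hρr hx)).2
  have h1' := (abs_nonneg _).trans (h.scale hG hB g0 g1 g2 hρ hρr hx)
  have := hμ.locFin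
  obtain ⟨t1, t2⟩ := hCt μ A hA hμ x ρ hρ
  have i1 : Integrable (fun y => G (ρ⁻¹ • (y - x))) μ :=
    (hG.continuous.comp (by fun_prop)).integrable_of_hasCompactSupport (compact_scale hρ g0 x)
  have h2 : ∫ y, Real.exp (-‖y - x‖ ^ 2 / (4 * ρ ^ 2)) ∂μ ≤ ∫ y, (G (ρ⁻¹ • (y - x))
      + Real.exp (-L ^ 2 / 32) * Real.exp (-‖y - x‖ ^ 2 / (8 * ρ ^ 2))) ∂μ := by
    refine integral_mono (integrable_gauss hM hA hμ x hρ) (i1.add (t1.const_mul _)) fun y => ?_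
    have a1 := g4 (ρ⁻¹ • (y - x))
    have a2 : -‖ρ⁻¹ • (y - x)‖ ^ 2 / 8 = -‖y - x‖ ^ 2 / (8 * ρ ^ 2) := by
      rw [norm_smul, norm_inv, Real.norm_of_nonneg hρ.le]
      field_simp
    rwa [gauss_scale hρ, a2] at a1
  rw [integral_add i1 (t1.const_mul _), integral_const_mul] at h2
  have h3 : Real.exp (-L ^ 2 / 32) * ∫ y, Real.exp (-‖y - x‖ ^ 2 / (8 * ρ ^ 2)) ∂μ
      ≤ ε * ρ ^ 2 := by
    have a1 : C * A * ρ ^ 2 ≤ |C| * A * ρ ^ 2 := by gcongr; exact le_abs_self C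
    refine (mul_le_mul_of_nonneg_left (t2.trans a1) (Real.exp_pos _).le).trans ?_
    rw [← mul_assoc]
    exact mul_le_mul_of_nonneg_right hL' (sq_nonneg ρ)
  have hc : 0 < ρ / r := by positivity
  have h4 : ∑ i, (∫ v, G ((ρ / r)⁻¹ • (v - r⁻¹ • (x - z)))
      ∂((μHE[2] : Measure E3).restrict {v | ⟪v, n⟫ = a i})) / (ρ / r) ^ 2
      ≤ 4 * Real.pi * ∑ i ∈ S, Real.exp (-ht z r n (a i) x ^ 2 / (4 * ρ ^ 2)) := by
    rw [← Finset.sum_subset (Finset.subset_univ S), Finset.mul_sum]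
    · refine Finset.sum_le_sum fun i _ => ?_
      have a1 := ((hC n h.unit).2.2 (r⁻¹ • (x - z)) (ρ / r) (a i) hc).1
      have a2 : -(⟪r⁻¹ • (x - z), n⟫ - a i) ^ 2 / (4 * (ρ / r) ^ 2)
          = -ht z r n (a i) x ^ 2 / (4 * ρ ^ 2) := by
        rw [ht_scale hr]; field_simp
      rw [a2, gd, div_eq_iff (by positivity)] at a1
      have := locFin_plane h.unit (a i)
      rw [div_le_iff₀ (by positivity)]
      refine (integral_mono ((hG.continuous.comp (by fun_prop)).integrable_of_hasCompactSupport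
        (compact_scale hc g0 _)) (Integrable.of_integral_ne_zero (by rw [a1]; positivity))
        fun v => (g3 _).trans_eq (gauss_scale hc _ _)).trans_eq ?_
      rw [a1]; ring
    · intro i _ hi
      have hm : MeasurableSet {v : E3 | ⟪v, n⟫ = a i} :=
        (isClosed_eq (by fun_prop) continuous_const).measurableSet
      rw [setIntegral_congr_fun hm (g := fun _ => 0) fun v hv => g0 _ ?_]
      · simp
      have a1 := abs_real_inner_le_norm (v - r⁻¹ • (x - z)) n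
      have a2 : ⟪v, n⟫ = a i := hv
      rw [h.unit, mul_one, inner_sub_left, a2, abs_sub_comm, ht_scale hr, abs_div,
        abs_of_pos hr, div_le_iff₀ hr] at a1
      rw [norm_smul, norm_inv, Real.norm_of_nonneg hc.le, ← div_eq_inv_mul, le_div_iff₀ hc,
        ← mul_div_assoc, div_le_iff₀ hr]
      exact (hS i hi).trans a1
  have h5 : (∫ y, G (ρ⁻¹ • (y - x)) ∂μ) ≤ (4 * Real.pi * ∑ i ∈ S,
      Real.exp (-ht z r n (a i) x ^ 2 / (4 * ρ ^ 2)) + B * (r / ρ) ^ 3 * δ) * ρ ^ 2 := by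
    rw [← div_le_iff₀ (by positivity)]
    linarith
  rw [gd, div_le_iff₀ (by positivity)]
  have h6 := mul_le_mul_of_nonneg_right hπ (by positivity : 0 ≤ (ε + B * (r / ρ) ^ 3 * δ) * ρ ^ 2)
  linarith

end Vale.Agent.P218UG
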