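import Vale.Agent.P218UG.QSa

/-! The structure of the flow at quiet points. -/

open MeasureTheory Set Filter Topology Metric
open scoped ENNReal RealInnerProductSpace ContDiff

namespace Vale.Agent.P218UG

open P218UA P218UM

variable {w : ℝ → E3 → ℝ} {I : Set ℝ} {A : ℝ} {x z n : E3} {t r q ρ L R ε η : ℝ} {k : ℕ}
  {a : Fin k → ℝ}

lemma ht_pt {Q : E3 ≃ₗᵢ[ℝ] E3} (d b : ℝ) (ξ : E2) (s : ℝ) :
    ht z r (nQ Q) b (pt Q (x - d • nQ Q) ξ s) = ht z r (nQ Q) b x - d + s := by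
  have h1 := inner_pt (Q := Q) (p := x - d • nQ Q) ξ s
  have h2 : ⟪nQ Q, nQ Q⟫ = 1 := by rw [real_inner_self_eq_norm_sq, norm_nQ]; norm_num
  simp only [inner_sub_left, real_inner_smul_left, h2] at h1
  simp only [ht, inner_sub_left]
  linarith

/-- one plane near `x` gives one graph -/
lemma qs_str (hM : Mono) (h : IsARFlow w I A) (hn : ‖n‖ = 1) (hρ : 0 < ρ) (hL : 0 < L)
    (hR : 0 < R) (hε : ε ≤ 1 / 2)
    (hS : ∀ (Q : E3 ≃ₗᵢ[ℝ] E3) (p : E3), GdLe w Q p R ρ t ε →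
      SheetOn w (Icc (t - ρ ^ 2 / 4) t) Q p R ρ η)
    (hG : ∀ (y : E3) (ρ' : ℝ) (S : Finset (Fin k)), ρ' ∈ Icc (ρ / 2) ρ → ‖y - z‖ ≤ 5 * r →
      (∀ i ∉ S, L * ρ ≤ |ht z r n (a i) y|) → gd (ar (w (t - ρ ^ 2))) y ρ'
        ≤ ∑ i ∈ S, Real.exp (-ht z r n (a i) y ^ 2 / (4 * ρ' ^ 2)) + ε)
    (hone : ∀ i j, i ≠ j → |ht z r n (a i) x| ≤ q / 4 → q / 4 < |ht z r n (a j) x|)
    (hq : (L + 10) * ρ ≤ q / 100) (hqr : q ≤ r) (hRr : R ≤ r) (hxz : ‖x - z‖ ≤ r)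
    (hI : Icc (t - ρ ^ 2) t ⊆ I) (hx : w t x = 0) :
    ∃ (Q : E3 ≃ₗᵢ[ℝ] E3) (p : E3) (d : ℝ) (u : ℝ → E2 → ℝ), x = pt Q p 0 d ∧ |d| ≤ q / 20 ∧
      ∀ t' ∈ Icc (t - ρ ^ 2 / 4) t, Loc (w t') Q p R (q / 5) η (u t') := by
  have hρ2 : 0 < ρ ^ 2 := by positivity
  have hLρ : 0 < L * ρ := by positivity
  have hclear : ∀ t' ∈ Icc (t - ρ ^ 2 / 4) t, ∀ y, w t' y = 0 → ∃ ρ' ∈ Icc (ρ / 2) ρ,
      1 ≤ gd (ar (w (t - ρ ^ 2))) y ρ' := fun t' ht' y hy =>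
    ⟨_, sqrt_mem hρ ⟨by linarith [ht'.1], ht'.2⟩, hM.clear w I A h t'
      (hI ⟨by linarith [ht'.1], ht'.2⟩) y hy _ (hI (left_mem_Icc.2 (by linarith)))
      (by linarith [ht'.1])⟩
  have htT : t ∈ Icc (t - ρ ^ 2 / 4) t := right_mem_Icc.2 (by linarith)
  obtain ⟨i, hi⟩ : ∃ i, |ht z r n (a i) x| < L * ρ := by
    by_contra hne
    push Not at hne
    obtain ⟨ρ', h1, h2⟩ := hclear t htT x hx
    have h3 := hG x ρ' ∅ h1 (by linarith) fun i _ => hne i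
    rw [Finset.sum_empty] at h3
    linarith
  obtain ⟨Q, rfl⟩ := exists_frame hn
  obtain ⟨d, hd⟩ : ∃ d, d = ht z r (nQ Q) (a i) x := ⟨_, rfl⟩
  rw [← hd] at hi
  obtain ⟨p, hp⟩ : ∃ p, p = x - d • nQ Q := ⟨_, rfl⟩
  have hxp : x = pt Q p 0 d := by
    rw [pt_add, pt_eq, show ((0 : E2), (0 : ℝ)) = 0 from rfl, map_zero, add_zero, hp,
      sub_add_cancel]
  have h1 : ∀ (ξ : E2) (s ρ' : ℝ), ‖ξ‖ ≤ 3 * r → |s| ≤ q / 5 → ρ' ∈ Icc (ρ / 2) ρ →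
      gd (ar (w (t - ρ ^ 2))) (pt Q p ξ s) ρ' ≤ Real.exp (-s ^ 2 / (4 * ρ' ^ 2)) + ε := by
    intro ξ s ρ' hξ hs hρ'
    have a1 : ‖pt Q p ξ s - x‖ ≤ ‖ξ‖ + (|s| + |d|) := by
      rw [hxp, pt_sub_pt]
      refine (norm_lin_le _).trans ?_
      simp only [sub_zero]
      linarith [abs_sub s d]
    have a2 := norm_sub_le_norm_sub_add_norm_sub (pt Q p ξ s) x z
    have a3 := hG (pt Q p ξ s) ρ' {i} hρ' (by linarith) fun j hj => by
      have b1 := hone i j (fun e => hj (e ▸ Finset.mem_singleton_self i)) (by rw [← hd]; linarith)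
      have b2 := abs_add_three (ht z r (nQ Q) (a j) x - d + s) d (-s)
      rw [abs_neg, show ht z r (nQ Q) (a j) x - d + s + d + -s = ht z r (nQ Q) (a j) x by ring]
        at b2
      rw [hp, ht_pt]
      linarith
    rwa [Finset.sum_singleton, hp, ht_pt, ← hd, sub_self, zero_add, ← hp] at a3
  have h2 : ∀ t' ∈ Icc (t - ρ ^ 2 / 4) t, ∀ (ξ : E2) (s : ℝ), ‖ξ‖ ≤ 3 * r → |s| ≤ q / 5 →
      w t' (pt Q p ξ s) = 0 → |s| < 5 * ρ := by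
    intro t' ht' ξ s hξ hs h0
    obtain ⟨ρ', a1, a2⟩ := hclear t' ht' _ h0
    have a3 := h1 ξ s ρ' hξ hs a1
    have a4 : 0 < ρ' := by linarith [a1.1]
    by_contra a5
    have a6 := pow_le_pow_left₀ (by positivity) (not_lt.1 a5) 2
    have a7 := pow_le_pow_left₀ a4.le a1.2 2
    have a8 : 2 ≤ s ^ 2 / (4 * ρ' ^ 2) := by
      rw [le_div_iff₀ (by positivity), ← sq_abs s]
      linarith
    have a9 := Real.add_one_le_exp (s ^ 2 / (4 * ρ' ^ 2))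
    have b1 : Real.exp (-s ^ 2 / (4 * ρ' ^ 2)) ≤ 1 / 3 := by
      rw [neg_div, Real.exp_neg, one_div]
      exact inv_anti₀ (by norm_num) (by linarith)
    linarith
  have h3 := h2 t htT 0 d (by simp; linarith) (by linarith) (hxp ▸ hx)
  rcases hS Q p (fun ξ s ρ' hξ hs hρ' => h1 ξ s ρ' (by linarith) (by linarith) hρ') with h4 | ⟨u, h4⟩
  · exact absurd (hxp ▸ hx) (h4 t htT 0 d (by simpa using hR) h3)
  refine ⟨Q, p, d, u, hxp, by linarith, fun t' ht' => ⟨fun ξ s hξ hs h0 => ?_, fun ξ hξ => ?_⟩⟩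
  · exact (((h4 t' ht').1 ξ hξ).2 s (h2 t' ht' ξ s (by linarith) hs h0)).1 h0
  · obtain ⟨b1, b2, -, b3, -⟩ := (h4 t' ht').2 ξ hξ
    exact ⟨(ContDiffAt.comp ξ (g := fun q : ℝ × E2 => u q.1 q.2) (f := fun ζ : E2 => (t', ζ)) b1
      (by fun_prop)).differentiableAt (by simp), b3,
      (Continuous.prodMk_right t').continuousAt.eventually b2⟩

lemma exp_two_mul (y : ℝ) : Real.exp (2 * y) = Real.exp y ^ 2 := by
  rw [← Real.exp_nat_mul]; norm_num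

lemma seven_le_exp : 7 ≤ Real.exp 2 := by
  have h := Real.exp_one_gt_d9
  have e : Real.exp 2 = Real.exp 1 ^ 2 := by rw [← Real.exp_nat_mul]; norm_num
  nlinarith

lemma twenty_le_exp : 20 ≤ Real.exp 3 := by
  have h := Real.exp_one_gt_d9
  have e : Real.exp 3 = Real.exp 1 ^ 3 := by rw [← Real.exp_nat_mul]; norm_num
  exact e ▸ le_trans (by norm_num) (pow_le_pow_left₀ (by norm_num) h.le 3)

/-- good times at the scale `q` -/
lemma qs_good (hC : Calc) {E σ δ' : ℝ} (hE : 0 < E) (hσ : 0 < σ) (hσ' : σ ≤ 1 / 4)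
    (hδ' : 0 < δ') : ∃ δ > 0, ∀ w I A, IsARFlow w I A → ∀ (z : E3) (r t : ℝ), 0 < r →
      Icc (t - r ^ 2) t ⊆ I → bbar w z r t < δ → ∀ c q : ℝ, 1 / 50 ≤ c → c ≤ 1 → 0 < q → q ≤ r →
        r ≤ E * q → ∃ τ ∈ Icc (c * (σ * q ^ 2)) (2 * (c * (σ * q ^ 2))), ∃ (n : E3) (k : ℕ)
          (a : Fin k → ℝ), NP (ar (w (t - τ))) z r δ' n a := by
  obtain ⟨δ, hδ, h⟩ := exists_good_time hC (a := σ / (50 * E ^ 2)) (by positivity) hδ'
  refine ⟨δ, hδ, fun w I A hw z r t hr hI hb c q hc hc1 hq hqr hrq => ?_⟩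
  have hr2 : 0 < r ^ 2 := by positivity
  have a1 : q ^ 2 ≤ r ^ 2 := pow_le_pow_left₀ hq.le hqr 2
  have a2 : r ^ 2 ≤ (E * q) ^ 2 := pow_le_pow_left₀ hr.le hrq 2
  have a3 : 0 < σ * q ^ 2 := by positivity
  obtain ⟨s, hs, n, k, a, hn, hN⟩ := h w I A hw z r t hr hI hb (c * (σ * q ^ 2) / r ^ 2) (by
    rw [div_le_div_iff₀ (by positivity) hr2]
    have := mul_le_mul_of_nonneg_left a2 hσ.le
    have := mul_le_mul_of_nonneg_right hc (by positivity : 0 ≤ σ * q ^ 2 * (50 * E ^ 2))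
    linarith) (by
    rw [← mul_div_assoc, div_le_iff₀ hr2]
    have := mul_le_mul_of_nonneg_right hc1 a3.le
    have := mul_le_mul hσ' a1 (sq_nonneg q) (by norm_num)
    linarith)
  refine ⟨s * r ^ 2, ⟨(div_le_iff₀ hr2).1 hs.1, ?_⟩, n, k, a, hn, hr, hN⟩
  have := hs.2
  rwa [← mul_div_assoc, le_div_iff₀ hr2] at this

/-- the first part, in terms of radii -/
lemma qs_a (hC : Calc) (hM : Mono) (hP : CylDensStmt) (h : IsARFlow w I A) {σ δ τ B M : ℝ}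
    (hσ : 0 < σ) (hσA : A * σ ≤ 1 / 100) (hL : 0 < L) (hσL : (L + 10) ^ 2 * σ ≤ 1 / 400)
    (hq : 0 < q) (hqr : q ≤ r) (hR : 0 < R) (hRr : R ≤ r) (hε : ε ≤ 1 / 2) (hB : 0 < B)
    (hS : ∀ (Q : E3 ≃ₗᵢ[ℝ] E3) (p : E3) (ρ : ℝ), 0 < ρ → Icc (t - ρ ^ 2) t ⊆ I →
      GdLe w Q p R ρ t ε → SheetOn w (Icc (t - ρ ^ 2 / 4) t) Q p R ρ η)
    (hG : ∀ (μ : Measure E3) (y : E3) (ρ : ℝ) (S : Finset (Fin k)), AR μ A → NP μ z r δ n a →
      0 < ρ → ρ ≤ r → ‖y - z‖ + L * ρ ≤ 10 * r → (∀ i ∉ S, L * ρ ≤ |ht z r n (a i) y|) →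
      gd μ y ρ ≤ ∑ i ∈ S, Real.exp (-ht z r n (a i) y ^ 2 / (4 * ρ ^ 2))
        + ε / 2 + B * (r / ρ) ^ 3 * δ)
    (hxz : ‖x - z‖ ≤ r) (hI : Icc (t - r ^ 2) t ⊆ I)
    (hτ : τ ∈ Icc (1 / 50 * (σ * q ^ 2)) (2 * (1 / 50 * (σ * q ^ 2))))
    (hN : NP (ar (w (t - τ))) z r δ n a) (hδ0 : 0 ≤ δ) (hM1 : 200 * r ^ 2 ≤ M ^ 2 * (σ * q ^ 2))
    (hM0 : 0 < M) (hδ1 : 8 * M ^ 3 * δ ≤ 1 / 100) (hδ2 : B * M ^ 3 * δ ≤ ε / 2) (hx : w t x = 0)
    (h1 : (∫ s in (t - σ * q ^ 2)..t, mk (ar (w s)) x q) / (σ * q ^ 2) ≤ 27 / 20) :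
    ∃ (Q : E3 ≃ₗᵢ[ℝ] E3) (p : E3) (d : ℝ) (u : ℝ → E2 → ℝ), x = pt Q p 0 d ∧ |d| ≤ q / 20 ∧
      ∀ t' ∈ Icc (t - σ * q ^ 2 / 200) t, t' ∈ I ∧ Loc (w t') Q p R (q / 5) η (u t') := by
  have hr := hN.pos
  have hT : 0 < σ * q ^ 2 := by positivity
  have hσ1 : σ ≤ 1 := by nlinarith [h.one_le]
  obtain ⟨ρ, hρ, rfl⟩ : ∃ ρ, 0 < ρ ∧ τ = ρ ^ 2 :=
    ⟨√τ, Real.sqrt_pos.2 (by linarith [hτ.1]), (Real.sq_sqrt (by linarith [hτ.1])).symm⟩
  have a1 : (L + 10) * ρ ≤ q / 100 := by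
    refine (abs_le_of_sq_le_sq' ?_ (by positivity)).2
    have b1 := mul_le_mul_of_nonneg_left hτ.2 (sq_nonneg (L + 10))
    have b2 := mul_le_mul_of_nonneg_right hσL (sq_nonneg q)
    nlinarith
  have a2 : 0 < L * ρ := by positivity
  have a3 : ∀ ρ', ρ / 2 ≤ ρ' → r / ρ' ≤ M := fun ρ' h' => by
    have b1 : r ≤ M * (ρ / 2) := by
      refine (abs_le_of_sq_le_sq' ?_ (by positivity)).2
      have := mul_le_mul_of_nonneg_left hτ.1 (sq_nonneg M)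
      nlinarith
    rw [div_le_iff₀ (by linarith)]
    nlinarith
  have a4 : ∀ ρ', ρ / 2 ≤ ρ' → (r / ρ') ^ 3 * δ ≤ M ^ 3 * δ := fun ρ' h' =>
    mul_le_mul_of_nonneg_right (pow_le_pow_left₀ (div_nonneg hr.le (by linarith)) (a3 ρ' h') 3) hδ0
  have hI' : Icc (t - ρ ^ 2) t ⊆ I := by
    refine (Icc_subset_Icc ?_ le_rfl).trans hI
    have := pow_le_pow_left₀ hρ.le (by linarith : ρ ≤ r) 2
    linarith
  have hI0 : t - ρ ^ 2 ∈ I := hI' (left_mem_Icc.2 (by linarith [sq_nonneg ρ]))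
  obtain ⟨Q, p, d, u, b1, b2, b3⟩ := qs_str (a := a) hM h hN.unit hρ hL hR hε
    (fun Q p => hS Q p ρ hρ hI') (fun y ρ' S c1 c2 c3 => by
      have c4 : L * ρ' ≤ L * ρ := mul_le_mul_of_nonneg_left c1.2 hL.le
      have c5 := hG _ y ρ' S (h.ratio _ hI0) hN (by linarith [c1.1]) (by linarith [c1.2])
        (by linarith) fun i hi => c4.trans (c3 i hi)
      have c6 := mul_le_mul_of_nonneg_left (a4 ρ' c1.1) hB.le
      linarith)
    (fun i j hij => qs_one hC hP h hσ hσA hq hqr hxz hI (t' := t - ρ ^ 2)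
      ⟨by linarith [sq_nonneg ρ], by linarith [hτ.2]⟩ hN (by linarith [a4 q (by linarith)]) h1 hij)
    a1 hqr hRr hxz hI' hx
  refine ⟨Q, p, d, u, b1, b2, fun t' ht' => ⟨hI' ⟨?_, ht'.2⟩, b3 t' ⟨?_, ht'.2⟩⟩⟩ <;>
    linarith [hτ.1, ht'.1]

/-- **[QS]** -/
theorem qs (hC : Calc) (hM : Mono) (hS : SheetStmt) (hP : CylDensStmt) : QSStmt := by
  intro A hA
  obtain ⟨Y, hY⟩ : ∃ Y, Y = 20 * A - 13 := ⟨_, rfl⟩
  rw [← hY]
  have hY7 : 7 ≤ Y := by linarith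
  obtain ⟨c₁, hc₁⟩ : ∃ c₁, c₁ = Real.exp (-Y - 1 / 2) / 20 := ⟨_, rfl⟩
  have hc0 : 0 < c₁ := by rw [hc₁]; positivity
  have hc1 : c₁ ≤ 1 / 10 := by
    have := Real.exp_le_one_iff.2 (by linarith : -Y - 1 / 2 ≤ 0)
    linarith
  refine ⟨c₁, hc0, by linarith, fun θ hθ => ?_⟩
  obtain ⟨η, hη⟩ : ∃ η, η = min θ c₁ := ⟨_, rfl⟩
  have hη0 : 0 < η := by rw [hη]; positivity
  have hη1 : η ≤ θ := hη ▸ min_le_left _ _
  have hη2 : η ≤ c₁ := hη ▸ min_le_right _ _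
  obtain ⟨ε₀, hε₀, hS⟩ := hS A η hη0
  obtain ⟨ε, hε⟩ : ∃ ε, ε = min ε₀ (1 / 2) := ⟨_, rfl⟩
  have hε0 : 0 < ε := by rw [hε]; positivity
  obtain ⟨L, B, hL, hB, hG⟩ := exists_gd_near hM hP (by linarith : 0 ≤ A) (half_pos hε0)
  refine ⟨min (1 / (100 * A)) (1 / (400 * (L + 10) ^ 2)), by positivity, fun σ hσ hσ0 => ?_⟩
  have hσA : A * σ ≤ 1 / 100 := by
    have := hσ0.trans (min_le_left _ _)
    rw [le_div_iff₀ (by positivity)] at this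
    linarith
  have hσL : (L + 10) ^ 2 * σ ≤ 1 / 400 := by
    have := hσ0.trans (min_le_right _ _)
    rw [le_div_iff₀ (by positivity)] at this
    linarith
  have hσ1 : σ ≤ 1 / 4 := by nlinarith
  obtain ⟨E, hE⟩ : ∃ E, E = Real.exp (Y + 8) := ⟨_, rfl⟩
  have hE0 : 0 < E := hE ▸ Real.exp_pos _
  obtain ⟨M, hM'⟩ : ∃ M, M = 15 * E / σ := ⟨_, rfl⟩
  have hM0 : 0 < M := by rw [hM']; positivity
  have hMσ : M * σ = 15 * E := by rw [hM']; field_simp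
  have hEM : E ≤ M := by nlinarith
  obtain ⟨δ', hδ'⟩ : ∃ δ', δ' = min (1 / (800 * M ^ 3)) (ε / (2 * B * M ^ 3)) := ⟨_, rfl⟩
  have hδ0 : 0 < δ' := by rw [hδ']; positivity
  have hδ1 : 8 * M ^ 3 * δ' ≤ 1 / 100 := by
    have : δ' ≤ _ := hδ' ▸ min_le_left _ _
    rw [le_div_iff₀ (by positivity)] at this
    linarith
  have hδ2 : B * M ^ 3 * δ' ≤ ε / 2 := by
    have : δ' ≤ _ := hδ' ▸ min_le_right _ _
    rw [le_div_iff₀ (by positivity)] at this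
    linarith
  obtain ⟨δ, hδ, hgood⟩ := qs_good hC hE0 hσ hσ1 hδ0
  refine ⟨δ, hδ, fun w I h t x y ⟨z, r, hz, hr1, hr2, hI, hb⟩ => ?_⟩
  have hr : 0 < r := (Real.exp_pos _).trans hr1
  have hxz : ‖x - z‖ ≤ r := by rw [norm_sub_rev]; exact hz.le
  have hle : ∀ y', y' ≤ y + 1 → Real.exp y' ≤ r := fun y' h' =>
    (Real.exp_le_exp.2 h').trans hr1.le
  have hge : ∀ y', y - Y - 5 ≤ y' → r ≤ E * Real.exp y' := fun y' h' => by
    rw [hE, ← Real.exp_add]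
    exact hr2.le.trans (Real.exp_le_exp.2 (by linarith))
  replace hgood := hgood w I A h z r t hr hI hb
  refine ⟨fun hx h1 => ?_, fun y' h1 h2 h3 => ?_⟩
  · obtain ⟨q, hq⟩ : ∃ q, q = Real.exp (y - Y) := ⟨_, rfl⟩
    have hq0 : 0 < q := hq ▸ Real.exp_pos _
    have hq1 : q ≤ r := hq ▸ hle _ (by linarith)
    have hq2 : r ≤ E * q := hq ▸ hge _ (by linarith)
    have hcR : c₁ * Real.exp (y + 1 / 2) = q / 20 := by
      rw [hc₁, hq, div_mul_eq_mul_div, ← Real.exp_add]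
      congr 2
      ring
    have hR0 := Real.exp_pos (y + 1 / 2)
    rw [tbar, exp_two_mul, ← hq] at h1
    obtain ⟨τ, hτ, n, k, a, hN⟩ := hgood (1 / 50) q le_rfl (by norm_num) hq0 hq1 hq2
    obtain ⟨Q, p, d, u, rfl, hd, hu⟩ := qs_a (η := η) hC hM hP h hσ hσA hL hσL hq0 hq1 hR0
      (hle _ (by linarith)) (hε ▸ min_le_right _ _) hB
      (fun Q p ρ hρ hI' hg => hS w I h Q p _ ρ t hR0 hρ hI' fun ξ s r' a1 a2 a3 =>
        (hg ξ s r' a1 a2 a3).trans (add_le_add_right (hε ▸ min_le_left _ _) _))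
      (fun μ y ρ S => hG μ z n y r δ' ρ k a S) hxz hI hτ hN hδ0.le (by
        have a1 := pow_le_pow_left₀ hr.le hq2 2
        have a2 : M ^ 2 * (σ * q ^ 2) = M * (15 * E) * q ^ 2 := by rw [← hMσ]; ring
        have a3 := mul_le_mul_of_nonneg_right hEM (by positivity : 0 ≤ E * q ^ 2)
        have a4 : M * σ ≤ M * (1 / 4) := mul_le_mul_of_nonneg_left hσ1 hM0.le
        have a5 := mul_le_mul_of_nonneg_right (hMσ ▸ a4) (by positivity : 0 ≤ E * q ^ 2)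
        have a6 : 0 ≤ E * E * q ^ 2 := by positivity
        linarith) hM0 hδ1 hδ2 hx h1
    have hT : 0 < σ * q ^ 2 := by positivity
    refine ⟨fun r' hr' hreg => ?_, fun y' hy' => ?_⟩
    · obtain ⟨a1, a2⟩ := hu t (right_mem_Icc.2 (by linarith))
      have a3 := mul_le_mul_of_nonneg_right hη2 hR0.le
      obtain ⟨v, b1, b2, b3⟩ := a2.far (flow_slice h.toIsFlow a1) hR0 hη0.le (by linarith) hη1 hr'
        (by linarith) (by linarith) hx hreg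
      exact ⟨v, b1, b2, by linarith⟩
    · obtain ⟨q', hq'⟩ : ∃ q', q' = Real.exp y' := ⟨_, rfl⟩
      have a0 : 0 < q' := hq' ▸ Real.exp_pos _
      have a1 : 20 * q' ≤ q := by
        refine (mul_le_mul_of_nonneg_right twenty_le_exp a0.le).trans ?_
        rw [hq, hq', ← Real.exp_add]
        exact Real.exp_le_exp.2 (by linarith)
      have a2 : q' ≤ Real.exp (y + 1 / 2) := hq' ▸ Real.exp_le_exp.2 (by linarith)
      have a3 : Icc (t - σ * q' ^ 2) t ⊆ Icc (t - σ * q ^ 2 / 200) t := by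
        have b1 := mul_le_mul_of_nonneg_left (pow_le_pow_left₀ (by positivity) a1 2) hσ.le
        have b2 : 0 < σ * q' ^ 2 := by positivity
        exact Icc_subset_Icc (by linarith) le_rfl
      rw [tbar, exp_two_mul, ← hq']
      refine avg_le hC h a0 (by positivity) (fun s hs => (hu s (a3 hs)).1) fun s hs => ?_
      obtain ⟨b1, b2⟩ := hu s (a3 hs)
      refine (mk_le_of_reg hP (flow_slice h.toIsFlow b1).smooth.continuous (θ := η) (by linarith)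
        a0 (b2.reg hη0.le le_rfl a2 fun v hv _ => ?_)).trans (by norm_num)
      obtain ⟨ξ, s', rfl, -, b3⟩ := exists_coord (Q := Q) (p := p) 0 d v
      rw [inner_pt]
      linarith [mem_ball_iff_norm.1 hv]
  · have hq0 := Real.exp_pos y'
    have hq2 := hge y' h1
    obtain ⟨τ, hτ, n, k, a, hN⟩ := hgood 1 _ (by norm_num) le_rfl hq0 (hle _ (by linarith)) hq2
    have e : Real.exp (y' + 2) = Real.exp 2 * Real.exp y' := by rw [← Real.exp_add, add_comm]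
    rw [tbar, exp_two_mul] at h3
    rw [tbar, exp_two_mul, e]
    have a1 : r / Real.exp y' ≤ M := by
      rw [div_le_iff₀ hq0]
      exact hq2.trans (mul_le_mul_of_nonneg_right hEM hq0.le)
    have a2 := mul_le_mul_of_nonneg_right (pow_le_pow_left₀ (by positivity) a1 3) hδ0.le
    exact qs_b hC hP h hσ hσA hq0 seven_le_exp (e ▸ hle _ (by linarith)) hxz hI (t' := t - τ)
      ⟨by linarith [hτ.1], by linarith [hτ.2]⟩ hN hδ0.le (by linarith) h3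

end Vale.Agent.P218UG
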