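import Vale.Agent.P218UG.Near

/-! Quiet points: time averages, two planes are seen at the next scale, one plane gives a graph. -/

open MeasureTheory Set Filter Topology Metric
open scoped ENNReal RealInnerProductSpace ContDiff

namespace Vale.Agent.P218UG

open P218UA P218UM

variable {w : ℝ → E3 → ℝ} {I : Set ℝ} {A : ℝ} {x z n : E3} {t t' r q σ δ : ℝ} {k : ℕ}
  {a : Fin k → ℝ}

lemma ii_mk (hC : Calc) (h : IsARFlow w I A) (hq : 0 < q) {b c : ℝ} (hbc : b ≤ c)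
    (hI : Icc b c ⊆ I) : IntervalIntegrable (fun s => mk (ar (w s)) x q) volume b c :=
  ((continuousOn_mk hC h x hq).mono (by rwa [uIcc_of_le hbc])).intervalIntegrable

lemma avg_le (hC : Calc) (h : IsARFlow w I A) (hq : 0 < q) {T m : ℝ} (hT : 0 < T)
    (hI : Icc (t - T) t ⊆ I) (hm : ∀ s ∈ Icc (t - T) t, mk (ar (w s)) x q ≤ m) :
    (∫ s in (t - T)..t, mk (ar (w s)) x q) / T ≤ m := by
  have h1 := intervalIntegral.integral_mono_on (by linarith) (ii_mk hC h hq (by linarith) hI)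
    intervalIntegrable_const hm
  rw [intervalIntegral.integral_const, sub_sub_cancel, smul_eq_mul] at h1
  rw [div_le_iff₀ hT]
  linarith

lemma avg_ge (hC : Calc) (h : IsARFlow w I A) (hq : 0 < q) {T T' m : ℝ} (hT' : 0 ≤ T')
    (hT : T' ≤ T) (hI : Icc (t - T) t ⊆ I)
    (hm : ∀ s ∈ Icc (t - T) (t - T'), m ≤ mk (ar (w s)) x q) :
    m * (T - T') ≤ ∫ s in (t - T)..t, mk (ar (w s)) x q := by
  have i1 := ii_mk (x := x) hC h hq (by linarith : t - T ≤ t - T')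
    ((Icc_subset_Icc le_rfl (by linarith)).trans hI)
  have i2 := ii_mk (x := x) hC h hq (by linarith : t - T' ≤ t)
    ((Icc_subset_Icc (by linarith) le_rfl).trans hI)
  have h1 := intervalIntegral.integral_mono_on (by linarith) intervalIntegrable_const i1 hm
  have h2 := intervalIntegral.integral_nonneg (μ := volume) (by linarith : t - T' ≤ t)
    (f := fun s => mk (ar (w s)) x q) fun s _ => mk_nonneg _ _ _
  rw [intervalIntegral.integral_const, smul_eq_mul] at h1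
  rw [← intervalIntegral.integral_add_adjacent_intervals i1 i2]
  linarith

lemma mk_step (hC : Calc) (h : IsARFlow w I A) (hq : 0 < q) {t₁ t₂ c : ℝ} (h₁ : t₁ ∈ I)
    (h₂ : t₂ ∈ I) (h12 : t₁ ≤ t₂) (hc : t₂ - t₁ ≤ c * q ^ 2) :
    mk (ar (w t₂)) x q ≤ mk (ar (w t₁)) x q + 3 * A * c := by
  have h1 := mk_almost_anti hC h x hq h₁ h₂ h12
  have hA : 0 ≤ A := by linarith [h.one_le]
  have h2 := mul_le_mul_of_nonneg_left hc (by positivity : 0 ≤ 3 * A / q ^ 2)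
  have e : 3 * A / q ^ 2 * (c * q ^ 2) = 3 * A * c := by field_simp
  linarith

lemma two_le_sum {b : Fin k → ℝ} {i j : Fin k} (hij : i ≠ j) {c : ℝ} (hc : c ≤ 1)
    (hi : b i ^ 2 ≤ c) (hj : b j ^ 2 ≤ c) :
    2 * (1 - c) ^ 4 ≤ ∑ i, max (1 - b i ^ 2) 0 ^ 4 := by
  have h1 : ∀ i, b i ^ 2 ≤ c → (1 - c) ^ 4 ≤ max (1 - b i ^ 2) 0 ^ 4 := fun i hi =>
    pow_le_pow_left₀ (by linarith) (le_max_of_le_left (by linarith)) 4
  have h2 := Finset.sum_le_sum_of_subset_of_nonneg (Finset.subset_univ {i, j})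
    (f := fun i => max (1 - b i ^ 2) 0 ^ 4) fun i _ _ => by positivity
  rw [Finset.sum_pair hij] at h2
  linarith [h1 i hi, h1 j hj]

/-- two planes are seen at the next scale -/
lemma qs_b (hC : Calc) (hP : CylDensStmt) (h : IsARFlow w I A) {Λ : ℝ} (hσ : 0 < σ)
    (hσA : A * σ ≤ 1 / 100) (hq : 0 < q) (hΛ : 7 ≤ Λ) (hΛq : Λ * q ≤ r) (hx : ‖x - z‖ ≤ r)
    (hI : Icc (t - r ^ 2) t ⊆ I) (ht' : t - t' ∈ Icc (σ * q ^ 2) (2 * σ * q ^ 2))
    (hN : NP (ar (w t')) z r δ n a) (hδ0 : 0 ≤ δ) (hδ : 8 * (r / q) ^ 3 * δ ≤ 1 / 100)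
    (h1 : 5 / 4 ≤ (∫ s in (t - σ * q ^ 2)..t, mk (ar (w s)) x q) / (σ * q ^ 2)) :
    17 / 10 ≤ (∫ s in (t - σ * (Λ * q) ^ 2)..t, mk (ar (w s)) x (Λ * q)) / (σ * (Λ * q) ^ 2) := by
  have hr := hN.pos
  have hσ1 : σ ≤ 1 := by nlinarith [h.one_le]
  have hΛ0 : 0 < Λ := by linarith
  have hq1 : q ≤ Λ * q := by nlinarith
  have hT : 0 < σ * q ^ 2 := by positivity
  have hT1 : 49 * (σ * q ^ 2) ≤ σ * (Λ * q) ^ 2 := by
    have : 49 ≤ Λ ^ 2 := by nlinarith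
    nlinarith
  have hT2 : σ * (Λ * q) ^ 2 ≤ r ^ 2 := by
    have := pow_le_pow_left₀ (by positivity) hΛq 2
    nlinarith [sq_nonneg (Λ * q)]
  have hI' : Icc (t - σ * (Λ * q) ^ 2) t ⊆ I := (Icc_subset_Icc (by linarith) le_rfl).trans hI
  have ht'I : t' ∈ I := hI' ⟨by linarith [ht'.2], by linarith [ht'.1]⟩
  have h2 := avg_le (x := x) hC h hq hT ((Icc_subset_Icc (by linarith) le_rfl).trans hI')
    (m := mk (ar (w t')) x q + 3 * A * (2 * σ)) fun s hs => mk_step hC h hq ht'I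
      (hI' ⟨by linarith [hs.1], hs.2⟩) (by linarith [hs.1, ht'.1]) (by linarith [hs.2, ht'.2])
  have h3 := (abs_le.1 (hN.mk_near hP hq (hq1.trans hΛq) (x := x) (by linarith))).2
  obtain ⟨i, j, hij, hi, hj⟩ := two_of_one_lt (a := fun i => ht z r n (a i) x / q) (by linarith)
  have h4 : ∀ i, |ht z r n (a i) x / q| < 1 → (ht z r n (a i) x / (Λ * q)) ^ 2 ≤ 1 / 49 := by
    intro i hi
    have a1 : (ht z r n (a i) x / q) ^ 2 ≤ 1 := (sq_le_one_iff_abs_le_one _).2 hi.le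
    have e : ht z r n (a i) x / (Λ * q) = ht z r n (a i) x / q / Λ := by field_simp
    rw [e, div_pow, div_le_iff₀ (by positivity)]
    nlinarith
  have h5 := two_le_sum (b := fun i => ht z r n (a i) x / (Λ * q)) hij (by norm_num) (h4 i hi)
    (h4 j hj)
  have h6 := (abs_le.1 (hN.mk_near hP (ρ := Λ * q) (by positivity) hΛq (x := x) (by linarith))).1
  have h7 : 8 * (r / (Λ * q)) ^ 3 * δ ≤ 8 * (r / q) ^ 3 * δ := by gcongr
  have h8 := avg_ge (x := x) hC h (q := Λ * q) (by positivity) (T' := 2 * σ * q ^ 2)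
    (by positivity) (by linarith) hI' (m := 9 / 5) fun s hs => by
      have := mk_step (x := x) hC h (q := Λ * q) (by positivity) (c := σ)
        (hI' ⟨hs.1, by linarith [hs.2]⟩) ht'I (by linarith [hs.2, ht'.2])
        (by linarith [hs.1, ht'.1])
      norm_num at h5
      linarith
  rw [le_div_iff₀ (by positivity)]
  linarith

/-- at most one plane is close to `x` -/
lemma qs_one (hC : Calc) (hP : CylDensStmt) (h : IsARFlow w I A) (hσ : 0 < σ)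
    (hσA : A * σ ≤ 1 / 100) (hq : 0 < q) (hqr : q ≤ r) (hx : ‖x - z‖ ≤ r)
    (hI : Icc (t - r ^ 2) t ⊆ I) (ht' : t - t' ∈ Icc 0 (σ * q ^ 2 / 25))
    (hN : NP (ar (w t')) z r δ n a) (hδ : 8 * (r / q) ^ 3 * δ ≤ 1 / 100)
    (h1 : (∫ s in (t - σ * q ^ 2)..t, mk (ar (w s)) x q) / (σ * q ^ 2) ≤ 27 / 20) {i j : Fin k}
    (hij : i ≠ j) (hi : |ht z r n (a i) x| ≤ q / 4) : q / 4 < |ht z r n (a j) x| := by
  have hσ1 : σ ≤ 1 := by nlinarith [h.one_le]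
  have hT : 0 < σ * q ^ 2 := by positivity
  have hT2 : σ * q ^ 2 ≤ r ^ 2 := by
    have := pow_le_pow_left₀ hq.le hqr 2
    nlinarith [sq_nonneg q]
  have hI' : Icc (t - σ * q ^ 2) t ⊆ I := (Icc_subset_Icc (by linarith) le_rfl).trans hI
  have ht'I : t' ∈ I := hI' ⟨by linarith [ht'.2], by linarith [ht'.1]⟩
  have h2 := avg_ge (x := x) hC h hq (T' := σ * q ^ 2 / 25) (by positivity) (by linarith) hI'
    (m := mk (ar (w t')) x q - 3 * A * σ) fun s hs => by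
      have := mk_step (x := x) hC h hq (c := σ) (hI' ⟨hs.1, by linarith [hs.2]⟩) ht'I
        (by linarith [hs.2, ht'.2]) (by linarith [hs.1, ht'.1])
      linarith
  rw [div_le_iff₀ hT] at h1
  have h3 : mk (ar (w t')) x q - 3 * A * σ ≤ 45 / 32 := by
    refine le_of_mul_le_mul_right ?_ hT
    linarith
  have h4 := (abs_le.1 (hN.mk_near hP hq hqr (x := x) (by linarith [hN.pos]))).1
  by_contra hj
  have h5 : ∀ i, |ht z r n (a i) x| ≤ q / 4 → (ht z r n (a i) x / q) ^ 2 ≤ 1 / 16 := by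
    intro i hi
    have := pow_le_pow_left₀ (abs_nonneg _) hi 2
    rw [div_pow, div_le_iff₀ (by positivity), ← sq_abs]
    linarith
  have h6 := two_le_sum (b := fun i => ht z r n (a i) x / q) hij (by norm_num) (h5 i hi)
    (h5 j (not_lt.1 hj))
  norm_num at h6
  linarith

/-- in a cylinder, the surface is contained in a flat graph -/
structure Loc (W : E3 → ℝ) (Q : E3 ≃ₗᵢ[ℝ] E3) (p : E3) (R H η : ℝ) (u : E2 → ℝ) : Prop where
  uniq : ∀ (ξ : E2) (s : ℝ), ‖ξ‖ < R → |s| ≤ H → W (pt Q p ξ s) = 0 → s = u ξ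
  diff : ∀ ξ : E2, ‖ξ‖ < R → DifferentiableAt ℝ u ξ ∧ ‖gradient u ξ‖ ≤ η ∧
    ∀ᶠ ζ in 𝓝 ξ, W (pt Q p ζ (u ζ)) = 0

variable {W : E3 → ℝ} {Q : E3 ≃ₗᵢ[ℝ] E3} {p : E3} {R H η d θ : ℝ} {u : E2 → ℝ}

lemma Loc.reg (h : Loc W Q p R H η u) (hη : 0 ≤ η) (hθ : η ≤ θ) (hr : r ≤ R)
    (hH : ∀ y ∈ ball (pt Q p 0 d) r, W y = 0 → |⟪y - p, nQ Q⟫| ≤ H) :
    Reg W θ (pt Q p 0 d) r := by
  have h1 : ∀ y ∈ ball (pt Q p 0 d) r, W y = 0 → ∃ ξ : E2, ‖ξ‖ < R ∧ y = pt Q p ξ (u ξ) := by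
    intro y hy h0
    have a0 := hH y hy h0
    obtain ⟨ξ, s, rfl, a1, -⟩ := exists_coord (Q := Q) (p := p) 0 d y
    have a2 : ‖ξ‖ < R := by
      rw [norm_zero] at a1
      linarith [mem_ball_iff_norm.1 hy]
    rw [inner_pt] at a0
    exact ⟨ξ, a2, by rw [← h.uniq ξ s a2 a0 h0]⟩
  refine ⟨nQ Q, norm_nQ, fun y hy y' hy' h0 h0' => ?_⟩
  obtain ⟨ξ, hξ, rfl⟩ := h1 y hy h0
  obtain ⟨ξ', hξ', rfl⟩ := h1 y' hy' h0'
  have h2 := (convex_ball (0 : E2) R).norm_image_sub_le_of_norm_fderiv_le (𝕜 := ℝ) (C := η)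
    (fun ζ hζ => (h.diff ζ (mem_ball_zero_iff.1 hζ)).1)
    (fun ζ hζ => norm_grad u ζ ▸ (h.diff ζ (mem_ball_zero_iff.1 hζ)).2.1)
    (mem_ball_zero_iff.2 hξ') (mem_ball_zero_iff.2 hξ)
  rw [pt_sub_pt, inner_lin_nQ]
  exact h2.trans (mul_le_mul hθ (fst_le_norm_lin (Q := Q) (ξ - ξ', u ξ - u ξ')) (norm_nonneg _)
    (hη.trans hθ))

lemma Loc.far (h : Loc W Q p R H η u) (hW : IsSurf W) (hR : 0 < R) (hη : 0 ≤ η) (hη1 : η ≤ 1)
    (hθ : η ≤ θ) (hr : r ≤ R) (hηR : η * R ≤ H / 4) (hd : |d| ≤ H / 4)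
    (hx : W (pt Q p 0 d) = 0) (hn : ¬Reg W θ (pt Q p 0 d) r) : ∃ y ∈ ball (pt Q p 0 d) r,
      W y = 0 ∧ H / 4 ≤ |⟪y - pt Q p 0 d, gradient W (pt Q p 0 d)⟫| := by
  by_contra hne
  push Not at hne
  refine hn (h.reg hη hθ hr fun y hy h0 => not_lt.1 fun hH => ?_)
  have hH0 : 0 ≤ H := by linarith [abs_nonneg d]
  have h1 := hne y hy h0
  obtain ⟨ξ, s, rfl, a1, -⟩ := exists_coord (Q := Q) (p := p) 0 d y
  have a2 : ‖ξ‖ ≤ R := by
    rw [norm_zero] at a1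
    linarith [mem_ball_iff_norm.1 hy]
  have h00 : ‖(0 : E2)‖ < R := by simpa using hR
  obtain ⟨b1, b2, b3⟩ := h.diff 0 h00
  obtain ⟨σ, hσ, hg⟩ := unit_normal (surf_unit hW b3.self_of_nhds)
    (inner_grad_tangent (surf_diff hW _) b1 b3)
  rw [← h.uniq 0 d h00 (by linarith) hx] at hg
  have hσ1 : |σ| = 1 := by rcases hσ with rfl | rfl <;> norm_num
  have hV : 0 < √(1 + ‖gradient u 0‖ ^ 2) := Real.sqrt_pos.2 (by positivity)
  have hV2 : √(1 + ‖gradient u 0‖ ^ 2) ≤ 2 :=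
    Real.sqrt_le_iff.2 ⟨by norm_num, by nlinarith [norm_nonneg (gradient u 0)]⟩
  rw [inner_pt] at hH
  rw [hg, real_inner_smul_right, pt_sub_pt, inner_lin, abs_mul, abs_div, hσ1, abs_of_pos hV,
    div_mul_eq_mul_div, div_lt_iff₀ hV] at h1
  simp only [sub_zero, inner_neg_right, mul_one, one_mul] at h1
  have a3 := abs_real_inner_le_norm ξ (gradient u 0)
  have a4 := mul_le_mul a2 b2 (norm_nonneg _) hR.le
  have a5 := abs_add_three (-⟪ξ, gradient u 0⟫ + (s - d)) ⟪ξ, gradient u 0⟫ d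
  rw [show -⟪ξ, gradient u 0⟫ + (s - d) + ⟪ξ, gradient u 0⟫ + d = s by ring] at a5
  nlinarith

end Vale.Agent.P218UG
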