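import Vale.Agent.P218UG.Tilt

/-! The graphical form of the local regularity theorem. -/

open MeasureTheory Set Filter Topology Metric
open scoped ENNReal RealInnerProductSpace ContDiff

namespace Vale.Agent.P218UG

open P218UA

variable {w : ℝ → E3 → ℝ} {I : Set ℝ} {A : ℝ} {Q : E3 ≃ₗᵢ[ℝ] E3} {p : E3} {R ρ t₀ ε κ : ℝ}

lemma gd_nonneg (μ : Measure E3) (x : E3) (r : ℝ) : 0 ≤ gd μ x r :=
  div_nonneg (integral_nonneg fun _ => (Real.exp_pos _).le) (by positivity)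

lemma gd_mono (hM : Mono) (h : IsARFlow w I A) (x : E3) {t t₁ t₂ : ℝ} (h₁ : t₁ ∈ I) (h₂ : t₂ ∈ I)
    (h12 : t₁ ≤ t₂) (h2 : t₂ < t) : gd (ar (w t₂)) x √(t - t₂) ≤ gd (ar (w t₁)) x √(t - t₁) :=
  (ENNReal.ofReal_le_ofReal_iff (gd_nonneg _ _ _)).1
    (le_self_add.trans (hM.mono w I A h x t t₁ t₂ h₁ h₂ h12 h2))

lemma integrable_gauss (hM : Mono) {μ : Measure E3} (hA : 0 ≤ A) (h : AR μ A) (x : E3) {r : ℝ}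
    (hr : 0 < r) : Integrable (fun y => Real.exp (-‖y - x‖ ^ 2 / (4 * r ^ 2))) μ := by
  obtain ⟨C, hC⟩ := hM.tail
  refine (hC μ A hA h x r hr).1.mono' (Continuous.aestronglyMeasurable (by fun_prop))
    (Eventually.of_forall fun y => ?_)
  rw [Real.norm_of_nonneg (Real.exp_pos _).le, Real.exp_le_exp, neg_div, neg_div, neg_le_neg_iff]
  exact div_le_div_of_nonneg_left (sq_nonneg _) (by positivity) (by nlinarith [sq_nonneg r])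

lemma exists_coord (ξ : E2) (s : ℝ) (y : E3) : ∃ (ξ' : E2) (s' : ℝ), y = pt Q p ξ' s' ∧
    ‖ξ'‖ ≤ ‖ξ‖ + ‖y - pt Q p ξ s‖ ∧ |s'| ≤ |s| + ‖y - pt Q p ξ s‖ := by
  obtain ⟨ξ', s', rfl⟩ : ∃ ξ' s', y = pt Q p ξ' s' := ⟨_, _, (pt_hor Q p y).symm⟩
  refine ⟨ξ', s', rfl, ?_, ?_⟩
  · have h1 := fst_le_norm_lin (Q := Q) (ξ' - ξ, s' - s)
    have h2 := norm_le_norm_add_norm_sub' ξ' ξ
    rw [pt_sub_pt]
    linarith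
  · have h1 := snd_le_norm_lin (Q := Q) (ξ' - ξ, s' - s)
    have h2 := abs_sub_abs_le_abs_sub s' s
    rw [pt_sub_pt]
    linarith

/-- the hypothesis of the theorem -/
def GdLe (w : ℝ → E3 → ℝ) (Q : E3 ≃ₗᵢ[ℝ] E3) (p : E3) (R ρ t₀ ε : ℝ) : Prop :=
  ∀ (ξ : E2) (s r : ℝ), ‖ξ‖ ≤ R + 10 * ρ → |s| ≤ 10 * ρ → r ∈ Icc (ρ / 2) ρ →
    gd (ar (w (t₀ - ρ ^ 2))) (pt Q p ξ s) r ≤ Real.exp (-s ^ 2 / (4 * r ^ 2)) + ε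

lemma sqrt_mem (hρ : 0 < ρ) {t : ℝ} (ht : t ∈ Icc (t₀ - 3 / 4 * ρ ^ 2) t₀) :
    √(t - (t₀ - ρ ^ 2)) ∈ Icc (ρ / 2) ρ :=
  ⟨Real.le_sqrt_of_sq_le (by linarith [ht.1]), Real.sqrt_le_iff.2 ⟨hρ.le, by linarith [ht.2]⟩⟩

lemma sheet_height (hM : Mono) (h : IsARFlow w I A) (hρ : 0 < ρ)
    (hI : Icc (t₀ - ρ ^ 2) t₀ ⊆ I) (hg : GdLe w Q p R ρ t₀ ε) (hκ : 0 < κ)
    (hε : ε ≤ 1 - Real.exp (-κ ^ 2 / 4)) {t : ℝ} (ht : t ∈ Icc (t₀ - 3 / 4 * ρ ^ 2) t₀) {ξ : E2}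
    {s : ℝ} (hξ : ‖ξ‖ ≤ R + 10 * ρ) (hs : |s| ≤ 10 * ρ) (h0 : w t (pt Q p ξ s) = 0) :
    |s| ≤ κ * ρ := by
  have hρ2 : 0 < ρ ^ 2 := by positivity
  have h1 := hM.clear w I A h t (hI ⟨by linarith [ht.1], ht.2⟩) _ h0 (t₀ - ρ ^ 2)
    (hI (left_mem_Icc.2 (by linarith))) (by linarith [ht.1])
  have h2 := sqrt_mem hρ ht
  have h3 := hg ξ s _ hξ hs h2
  generalize √(t - (t₀ - ρ ^ 2)) = r at h1 h2 h3
  have hr : 0 < r := by linarith [h2.1]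
  have h4 : Real.exp (-κ ^ 2 / 4) ≤ Real.exp (-s ^ 2 / (4 * r ^ 2)) := by linarith
  rw [Real.exp_le_exp, div_le_div_iff₀ (by norm_num) (by positivity)] at h4
  have h5 : r ^ 2 ≤ ρ ^ 2 := pow_le_pow_left₀ hr.le h2.2 2
  refine abs_le_of_sq_le_sq' ?_ (by positivity) |> abs_le.2
  nlinarith [sq_nonneg κ]

lemma sheet_gd (hM : Mono) (h : IsARFlow w I A) (hρ : 0 < ρ)
    (hI : Icc (t₀ - ρ ^ 2) t₀ ⊆ I) (hg : GdLe w Q p R ρ t₀ ε)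
    {t : ℝ} (ht : t ∈ Icc (t₀ - ρ ^ 2 / 2) t₀) {ξ : E2}
    {s : ℝ} (hξ : ‖ξ‖ ≤ R + 10 * ρ) (hs : |s| ≤ 10 * ρ) :
    gd (ar (w (t - (ρ / 2) ^ 2))) (pt Q p ξ s) (ρ / 2) ≤ 1 + ε := by
  have hρ2 : 0 < ρ ^ 2 := by positivity
  have h1 := gd_mono hM h (pt Q p ξ s) (t := t) (t₁ := t₀ - ρ ^ 2) (t₂ := t - (ρ / 2) ^ 2)
    (hI (left_mem_Icc.2 (by linarith))) (hI ⟨by linarith [ht.1], by linarith [ht.2]⟩)
    (by linarith [ht.1]) (by linarith)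
  rw [sub_sub_cancel, Real.sqrt_sq (by positivity)] at h1
  have h2 := hg ξ s _ hξ hs (sqrt_mem hρ (t := t) ⟨by linarith [ht.1], ht.2⟩)
  have h3 : Real.exp (-s ^ 2 / (4 * √(t - (t₀ - ρ ^ 2)) ^ 2)) ≤ 1 :=
    Real.exp_le_one_iff.2 (div_nonpos_of_nonpos_of_nonneg (by simp [sq_nonneg]) (by positivity))
  linarith

/-- height, curvature and tilt of the points of the flow in the cylinder -/
def Est (w : ℝ → E3 → ℝ) (Q : E3 ≃ₗᵢ[ℝ] E3) (p : E3) (R ρ t₀ κ : ℝ) : Prop :=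
  ∀ t ∈ Icc (t₀ - ρ ^ 2 / 4) t₀, ∀ (ξ : E2) (s : ℝ), ‖ξ‖ ≤ R + 6 * ρ → |s| ≤ 5 * ρ →
    w t (pt Q p ξ s) = 0 → |s| ≤ κ * ρ ∧ ‖hs (w t) (pt Q p ξ s)‖ ≤ κ / ρ ∧
      1 - ⟪gradient (w t) (pt Q p ξ s), nQ Q⟫ ^ 2 ≤ 4 * κ

lemma sheet_est (hM : Mono) (hW : WhiteStmt) (A : ℝ) (hκ : 0 < κ) (hκ' : κ ≤ 1 / 10) :
    ∃ ε > 0, ε ≤ 1 / 2 ∧ ∀ w I, IsARFlow w I A → ∀ (Q : E3 ≃ₗᵢ[ℝ] E3) (p : E3) (R ρ t₀ : ℝ),
      0 < ρ → Icc (t₀ - ρ ^ 2) t₀ ⊆ I → GdLe w Q p R ρ t₀ ε → Est w Q p R ρ t₀ κ := by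
  obtain ⟨ε₁, hε₁, hW⟩ := hW A (κ / 2) (by positivity)
  have h0 : 0 < 1 - Real.exp (-κ ^ 2 / 4) := by
    rw [sub_pos, Real.exp_lt_one_iff]
    have := sq_pos_of_pos hκ
    linarith
  refine ⟨min (1 / 2) (min ε₁ (1 - Real.exp (-κ ^ 2 / 4))), by positivity, min_le_left _ _,
    fun w I h Q p R ρ t₀ hρ hI hg t ht ξ s hξ hs hx => ?_⟩
  have hρ2 : 0 < ρ ^ 2 := by positivity
  have h1 : ∀ (ξ : E2) (s : ℝ), ‖ξ‖ ≤ R + 9 * ρ → |s| ≤ 9 * ρ → w t (pt Q p ξ s) = 0 →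
      |s| ≤ κ * ρ ∧ ‖P218UA.hs (w t) (pt Q p ξ s)‖ ≤ κ / ρ := by
    intro ξ s hξ hs hx
    refine ⟨sheet_height hM h hρ hI hg hκ ((min_le_right _ _).trans (min_le_right _ _))
      ⟨by linarith [ht.1], ht.2⟩ (by linarith) (by linarith) hx, ?_⟩
    refine (hW w I h _ t (ρ / 2) (by positivity)
      ((Icc_subset_Icc (by linarith [ht.1]) ht.2).trans hI) (fun t' ht' y hy _ => ?_) hx).trans_eq
      (by field_simp)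
    obtain ⟨ξ', s', rfl, a1, a2⟩ := exists_coord (Q := Q) (p := p) ξ s y
    have a3 := mem_closedBall_iff_norm.1 hy
    have a4 := sheet_gd hM h hρ hI hg (t := t') ⟨by linarith [ht.1, ht'.1], ht'.2.trans ht.2⟩
      (ξ := ξ') (s := s') (by linarith) (by linarith)
    have a5 := (min_le_right (1 / 2) _).trans (min_le_left ε₁ (1 - Real.exp (-κ ^ 2 / 4)))
    linarith
  obtain ⟨h2, h3⟩ := h1 ξ s (by linarith) (by linarith) hx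
  refine ⟨h2, h3, tilt (p := p) (flow_slice h.toIsFlow (hI ⟨by linarith [ht.1], ht.2⟩)) hx norm_nQ
    hρ hκ' fun y hy hy' => ?_⟩
  obtain ⟨ξ', s', rfl, a1, a2⟩ := exists_coord (Q := Q) (p := p) ξ s y
  rw [inner_pt]
  exact (h1 ξ' s' (by linarith) (by linarith) hy).symm

lemma est_ne (he : Est w Q p R ρ t₀ κ) (hρ : 0 < ρ) (hκ' : κ ≤ 1 / 10) {t : ℝ}
    (ht : t ∈ Icc (t₀ - ρ ^ 2 / 4) t₀) {ξ : E2} (hξ : ‖ξ‖ ≤ R + 6 * ρ) {s : ℝ} (hs : |s| = 5 * ρ) :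
    w t (pt Q p ξ s) ≠ 0 := fun h0 => by
  have := (he t ht ξ s hξ hs.le h0).1
  nlinarith

lemma est_simple (he : Est w Q p R ρ t₀ κ) (hκ' : κ ≤ 1 / 10) {t : ℝ}
    (ht : t ∈ Icc (t₀ - ρ ^ 2 / 4) t₀) {ξ : E2} (hξ : ‖ξ‖ ≤ R + 6 * ρ) {s : ℝ}
    (hs : s ∈ Icc (-(5 * ρ)) (5 * ρ)) (h0 : w t (pt Q p ξ s) = 0) :
    ⟪gradient (w t) (pt Q p ξ s), nQ Q⟫ ≠ 0 := fun h1 => by
  have := (he t ht ξ s hξ (abs_le.2 hs) h0).2.2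
  rw [h1] at this
  linarith

/-- at most one sheet -/
lemma sheet_count (hM : Mono) (h : IsARFlow w I A) (hR : 0 < R) (hρ : 0 < ρ)
    (hI : Icc (t₀ - ρ ^ 2) t₀ ⊆ I) (hg : GdLe w Q p R ρ t₀ ε) (hε : ε ≤ 1 / 2)
    (he : Est w Q p R ρ t₀ κ) (hκ' : κ ≤ 1 / 10) :
    {s | s ∈ Icc (-(5 * ρ)) (5 * ρ) ∧ w (t₀ - (ρ / 2) ^ 2) (pt Q p 0 s) = 0}.ncard ≤ 1 := by
  have hρ2 : 0 < ρ ^ 2 := by positivity
  obtain ⟨t, ht⟩ : ∃ t, t = t₀ - (ρ / 2) ^ 2 := ⟨_, rfl⟩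
  have h1 := sheet_gd hM h hρ hI hg (t := t₀) ⟨by linarith, le_rfl⟩ (ξ := 0) (s := 0)
    (by simp; positivity) (by simp; positivity)
  rw [← ht] at h1 ⊢
  have htT : t ∈ Icc (t₀ - ρ ^ 2 / 4) t₀ := ⟨by linarith, by linarith⟩
  have htI : t ∈ I := hI ⟨by linarith, by linarith⟩
  have hS := flow_slice h.toIsFlow htI
  have hb : ∀ ξ ∈ ball (0 : E2) (6 * ρ), ‖ξ‖ ≤ R + 6 * ρ := fun ξ hξ => by
    linarith [mem_ball_zero_iff.1 hξ]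
  have hcd : ContDiff ℝ ∞ fun z : E2 × ℝ => w t (pt Q p z.1 z.2) := hS.smooth.comp contDiff_pt
  obtain ⟨m, u, hu, hz⟩ := exists_stack (f := fun z : E2 × ℝ => w t (pt Q p z.1 z.2)) (n := ∞)
    (by simp) (U := ball 0 (6 * ρ)) isOpen_ball (convex_ball _ _).isPreconnected
    (a := -(5 * ρ)) (b := 5 * ρ) (fun ξ _ s _ => hcd.contDiffAt)
    (fun ξ hξ => est_ne he hρ hκ' htT (hb ξ hξ) (by rw [abs_neg, abs_of_pos (by positivity)]))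
    (fun ξ hξ => est_ne he hρ hκ' htT (hb ξ hξ) (abs_of_pos (by positivity)))
    (fun ξ hξ s hs h0 => by
      have a1 := (HasFDerivAt.comp_hasDerivAt (f := fun s : ℝ => (ξ, s)) s
        ((hcd.differentiable (by simp)) _).hasFDerivAt
        ((hasDerivAt_const s ξ).prodMk (hasDerivAt_id s))).unique
        (hasDerivAt_vert (Q := Q) (p := p) hS ξ s)
      rw [a1]
      exact est_simple he hκ' htT (hb ξ hξ) hs h0)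
  have h00 : (0 : E2) ∈ ball (0 : E2) (6 * ρ) := mem_ball_self (by positivity)
  have e : {s | s ∈ Icc (-(5 * ρ)) (5 * ρ) ∧ w t (pt Q p 0 s) = 0} = range fun j => u j 0 :=
    Set.ext (hz 0 h00).2
  rw [e, ncard_range_of_injective (hz 0 h00).1.injective, Nat.card_eq_fintype_card,
    Fintype.card_fin]
  by_contra hm
  have hm' : 1 < m := by omega
  have hu1 : ∀ j, ContDiffOn ℝ 1 (u j) (ball 0 (6 * ρ)) := fun j ξ hξ =>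
    ((hu j ξ hξ).of_le (by norm_cast)).contDiffWithinAt
  have hu2 : ∀ j, ∀ ξ ∈ ball (0 : E2) (6 * ρ),
      |u j ξ| ≤ ρ / 10 ∧ w t (pt Q p ξ (u j ξ)) = 0 := fun j ξ hξ => by
    obtain ⟨a1, a2⟩ := ((hz ξ hξ).2 _).2 ⟨j, rfl⟩
    have := (he t htT ξ _ (hb ξ hξ) (abs_le.2 a1) a2).1
    exact ⟨by nlinarith, a2⟩
  have h2 := gd_two_graphs (Q := Q) (p := p) hρ (hu1 ⟨0, by omega⟩) (hu1 ⟨1, hm'⟩)
    (fun ξ hξ => ⟨(hu2 _ ξ hξ).1, (hu2 _ ξ hξ).1, ((hz ξ hξ).1 (by simp [Fin.lt_def])).ne,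
      (hu2 _ ξ hξ).2, (hu2 _ ξ hξ).2⟩)
    (integrable_gauss hM (by linarith [h.one_le]) (h.ratio t htI) p (by positivity))
  rw [pt_eq, show ((0 : E2), (0 : ℝ)) = 0 from rfl, map_zero, add_zero] at h1
  linarith

/-- **[SHEET]** -/
theorem sheet (hM : Mono) (hW : WhiteStmt) : SheetStmt := by
  intro A η hη
  obtain ⟨κ, hκ⟩ : ∃ κ, κ = min (1 / 10) (min (η ^ 2 / 8) (η / 3)) := ⟨_, rfl⟩
  have hκ0 : 0 < κ := by rw [hκ]; positivity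
  have hκ1 : κ ≤ 1 / 10 := hκ ▸ min_le_left _ _
  have hκ2 : κ ≤ η ^ 2 / 8 := hκ ▸ (min_le_right _ _).trans (min_le_left _ _)
  have hκ3 : κ ≤ η / 3 := hκ ▸ (min_le_right _ _).trans (min_le_right _ _)
  obtain ⟨ε, hε, hε', hest⟩ := sheet_est hM hW A hκ0 hκ1
  refine ⟨ε, hε, fun w I h Q p R ρ t₀ hR hρ hI hg => ?_⟩
  have he := hest w I h Q p R ρ t₀ hρ hI hg
  have hρ2 : 0 < ρ ^ 2 := by positivity
  obtain ⟨f, hf⟩ : ∃ f : (ℝ × E2) × ℝ → ℝ, f = fun z => w z.1.1 (pt Q p z.1.2 z.2) := ⟨_, rfl⟩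
  obtain ⟨K, hK⟩ : ∃ K, K = Icc (t₀ - ρ ^ 2 / 4) t₀ ×ˢ ball (0 : E2) R := ⟨_, rfl⟩
  have hK1 : ∀ q ∈ K, q.1 ∈ Icc (t₀ - ρ ^ 2 / 4) t₀ ∧ ‖q.2‖ ≤ R + 6 * ρ ∧ q.1 ∈ I := by
    rw [hK]
    intro q hq
    exact ⟨hq.1, by linarith [mem_ball_zero_iff.1 hq.2], hI ⟨by linarith [hq.1.1], hq.1.2⟩⟩
  have hK2 : ∀ t ∈ Icc (t₀ - ρ ^ 2 / 4) t₀, ∀ ξ : E2, ‖ξ‖ < R → (t, ξ) ∈ K := fun t ht ξ hξ =>
    hK ▸ ⟨ht, mem_ball_zero_iff.2 hξ⟩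
  have c1 : ∀ q ∈ K, ∀ s ∈ Icc (-(5 * ρ)) (5 * ρ), ContDiffAt ℝ ∞ f (q, s) := fun q hq s _ =>
    hf ▸ cd_frame h.toIsFlow (hK1 q hq).2.2 s
  have c2 : ∀ q ∈ K, ∀ s, |s| = 5 * ρ → f (q, s) ≠ 0 := fun q hq s hs =>
    hf ▸ est_ne he hρ hκ1 (hK1 q hq).1 (hK1 q hq).2.1 hs
  have c3 := fun q hq => c2 q hq (-(5 * ρ)) (by rw [abs_neg, abs_of_pos (by positivity)])
  have c4 := fun q hq => c2 q hq (5 * ρ) (abs_of_pos (by positivity))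
  have c5 : ∀ q ∈ K, ∀ s ∈ Icc (-(5 * ρ)) (5 * ρ), f (q, s) = 0 →
      fderiv ℝ f (q, s) (0, 1) ≠ 0 := fun q hq s hs h0 => by
    rw [hf] at h0
    rw [hf, fderiv_frame h.toIsFlow (hK1 q hq).2.2]
    exact est_simple he hκ1 (hK1 q hq).1 (hK1 q hq).2.1 hs h0
  obtain ⟨m, hm⟩ := ncard_zero_const (by simp)
    (hK ▸ isPreconnected_Icc.prod (convex_ball _ _).isPreconnected) c1 c3 c4 c5
  have hm1 : m ≤ 1 := by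
    rw [← (hm _ (hK2 (t₀ - (ρ / 2) ^ 2) ⟨by linarith, by linarith⟩ 0 (by simpa using hR))).2, hf]
    exact sheet_count hM h hR hρ hI hg hε' he hκ1
  rcases Nat.le_one_iff_eq_zero_or_eq_one.1 hm1 with rfl | rfl
  · refine Or.inl fun t ht ξ s hξ hs h0 => ?_
    obtain ⟨a1, a2⟩ := hm _ (hK2 t ht ξ hξ)
    rw [ncard_eq_zero a1, eq_empty_iff_forall_notMem] at a2
    exact a2 s ⟨abs_le.1 hs.le, hf ▸ h0⟩
  obtain ⟨u, hu⟩ := exists_graph_of_unique (by simp) c1 c3 c4 c5 fun q hq => by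
    obtain ⟨s, hs⟩ := ncard_eq_one.1 (hm q hq).2
    exact ⟨s, (hs ▸ mem_singleton s : s ∈ {s | s ∈ Icc (-(5 * ρ)) (5 * ρ) ∧ f (q, s) = 0}),
      fun s' hs' => (hs ▸ hs' : s' ∈ ({s} : Set ℝ))⟩
  refine Or.inr ⟨fun t ξ => u (t, ξ), fun t ht => ?_⟩
  have k1 : ∀ ξ : E2, ‖ξ‖ < R → u (t, ξ) ∈ Icc (-(5 * ρ)) (5 * ρ) ∧
      w t (pt Q p ξ (u (t, ξ))) = 0 := fun ξ hξ => by
    have := ((hu _ (hK2 t ht ξ hξ)).2.self_of_nhds _).2 rfl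
    rwa [hf] at this
  have k2 := fun (ξ : E2) (hξ : ‖ξ‖ < R) =>
    he t ht ξ _ (by linarith) (abs_le.2 (k1 ξ hξ).1) (k1 ξ hξ).2
  refine ⟨fun ξ hξ => ⟨(k2 ξ hξ).1.trans_lt (by nlinarith), fun s hs => ?_⟩, fun ξ hξ => ?_⟩
  · rw [eq_comm, ← (hu _ (hK2 t ht ξ hξ)).2.self_of_nhds s, hf]
    exact ⟨fun a3 => ⟨abs_le.1 hs.le, a3⟩, fun a3 => a3.2⟩
  obtain ⟨a1, a2⟩ := hu _ (hK2 t ht ξ hξ)
  have a3 : ∀ᶠ q : ℝ × E2 in 𝓝 (t, ξ), w q.1 (pt Q p q.2 (u (q.1, q.2))) = 0 := by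
    filter_upwards [a2] with q hq
    have := ((hq _).2 rfl).2
    rwa [hf] at this
  have a4 : ContDiffAt ℝ 2 (fun ξ => u (t, ξ)) ξ :=
    (ContDiffAt.comp ξ (f := fun ζ : E2 => (t, ζ)) a1 (by fun_prop)).of_le (by norm_cast)
  obtain ⟨b1, b2⟩ := graph_bounds (flow_slice h.toIsFlow (hK1 _ (hK2 t ht ξ hξ)).2.2) a4
    ((Continuous.prodMk_right t).continuousAt.eventually a3) (κ := κ) (by linarith)
    (k2 ξ hξ).2.2 (k2 ξ hξ).2.1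
  refine ⟨a1, a3, (k2 ξ hξ).1.trans (by nlinarith),
    (abs_le_of_sq_le_sq' (by linarith) hη.le).2, b2.trans ?_⟩
  rw [← mul_div_assoc]
  exact div_le_div_of_nonneg_right (by linarith) hρ.le

end Vale.Agent.P218UG
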