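import Vale.Agent.P218UG.Graph
import Mathlib.Analysis.SpecialFunctions.Gaussian.FourierTransform

/-! Static lemmas: the tilt in a thin slab, bounds for graphs, the Gaussian area of two graphs. -/

open MeasureTheory Set Filter Topology Metric
open scoped ENNReal RealInnerProductSpace ContDiff

namespace Vale.Agent.P218UG

open P218UA

variable {Q : E3 ≃ₗᵢ[ℝ] E3} {p : E3} {W : E3 → ℝ}

/-- **tilt lemma**: small curvature in a thin slab forces a small tilt -/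
theorem tilt (hW : IsSurf W) {x n : E3} (hx : W x = 0) (hn : ‖n‖ = 1) {κ ρ : ℝ} (hρ : 0 < ρ)
    (hκ : κ ≤ 1 / 10)
    (h : ∀ y, W y = 0 → ‖y - x‖ ≤ 2 * ρ → ‖hs W y‖ ≤ κ / ρ ∧ |⟪y - p, n⟫| ≤ κ * ρ) :
    1 - ⟪gradient W x, n⟫ ^ 2 ≤ 4 * κ := by
  have hx' := h x hx (by simp; positivity)
  have hκ0 : 0 ≤ κ := by
    by_contra h0
    nlinarith [abs_nonneg ⟪x - p, n⟫, hx'.2]
  obtain ⟨ν, hν⟩ : ∃ ν, ν = gradient W x := ⟨_, rfl⟩
  have hν1 : ‖ν‖ = 1 := hν ▸ surf_unit hW hx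
  have e1 : κ / ρ * ρ = κ := by field_simp
  obtain ⟨u, hu0, hu⟩ := exists_disc (n := ν) (k := 2) le_rfl (surf_cd2 hW) hν1 hx (a := κ / ρ)
    (r := 2 * ρ) (R := 3 / 2 * ρ) (θ := 0) (by simp [hν]) (fun y h1 h2 => (h y h1 h2).1)
    (by nlinarith) (by linarith)
  rw [← hν]
  have hc : ⟪ν, n⟫ ^ 2 ≤ 1 := by
    have := abs_real_inner_le_norm ν n
    rw [hν1, hn, mul_one] at this
    rwa [sq_le_one_iff_abs_le_one]
  have hνν : ⟪ν, ν⟫ = 1 := by rw [real_inner_self_eq_norm_sq, hν1]; norm_num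
  have hnn : ⟪n, n⟫ = 1 := by rw [real_inner_self_eq_norm_sq, hn]; norm_num
  obtain ⟨η, hη⟩ : ∃ η : P218GA.hyp ν, (η : E3) = ρ • (n - ⟪ν, n⟫ • ν) :=
    ⟨⟨ρ • (n - ⟪ν, n⟫ • ν), P218GA.mem_hyp.2 (by
      rw [real_inner_smul_right, inner_sub_right, real_inner_smul_right, hνν]; ring)⟩, rfl⟩
  have hη1 : ⟪(η : E3), n⟫ = ρ * (1 - ⟪ν, n⟫ ^ 2) := by
    rw [hη, real_inner_smul_left, inner_sub_left, real_inner_smul_left, hnn]; ring
  have hη2 : ‖η‖ ≤ ρ := by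
    refine abs_le_of_sq_le_sq' ?_ hρ.le |>.2
    rw [Submodule.coe_norm, hη, norm_smul, mul_pow, Real.norm_eq_abs, sq_abs,
      ← real_inner_self_eq_norm_sq]
    simp only [inner_sub_left, inner_sub_right, real_inner_smul_left, real_inner_smul_right, hνν,
      hnn, real_inner_comm ν n]
    nlinarith [sq_nonneg ρ, sq_nonneg (ρ * ⟪ν, n⟫)]
  have h1 : ‖u η - u 0‖ ≤ 2 * κ * ‖η - 0‖ :=
    (convex_closedBall (0 : P218GA.hyp ν) ρ).norm_image_sub_le_of_norm_fderiv_le (𝕜 := ℝ)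
      (fun ζ hζ => (hu ζ (by linarith [mem_closedBall_zero_iff.1 hζ])).1.differentiableAt
        (by norm_num)) (fun ζ hζ => by
        have a1 := mem_closedBall_zero_iff.1 hζ
        have a2 := (hu ζ (by linarith)).2.2.2.2
        have a3 : κ / ρ * ‖ζ‖ ≤ κ / ρ * ρ := mul_le_mul_of_nonneg_left a1 (by positivity)
        linarith) (mem_closedBall_self hρ.le) (mem_closedBall_zero_iff.2 hη2)
  rw [hu0, sub_zero, sub_zero, Real.norm_eq_abs] at h1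
  obtain ⟨-, h2, -, h3, -⟩ := hu η (by linarith)
  have h4 := (h _ h2 (by linarith)).2
  have h5 : ⟪gr x ν u η - p, n⟫ = ⟪x - p, n⟫ + ρ * (1 - ⟪ν, n⟫ ^ 2) + u η * ⟪ν, n⟫ := by
    rw [← hη1, ← real_inner_smul_left, ← inner_add_left, ← inner_add_left, gr]
    congr 1
    abel
  have h6 : |u η * ⟪ν, n⟫| ≤ 2 * κ * ρ := by
    rw [abs_mul]
    have a1 := (sq_le_one_iff_abs_le_one _).1 hc
    have a2 := mul_le_mul_of_nonneg_left hη2 (by positivity : 0 ≤ 2 * κ)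
    nlinarith [abs_nonneg (u η)]
  rw [h5] at h4
  have h7 := abs_le.1 h4
  have h8 := abs_le.1 h6
  have h9 := abs_le.1 hx'.2
  have : ρ * (1 - ⟪ν, n⟫ ^ 2) ≤ ρ * (4 * κ) := by linarith
  exact le_of_mul_le_mul_left this hρ

/-- bounds for the first and second derivatives of a graph -/
lemma graph_bounds (hW : IsSurf W) {u : E2 → ℝ} {ξ : E2} (hu : ContDiffAt ℝ 2 u ξ)
    (h0 : ∀ᶠ ζ in 𝓝 ξ, W (pt Q p ζ (u ζ)) = 0) {κ a : ℝ} (hκ : κ ≤ 1 / 8)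
    (h1 : 1 - ⟪gradient W (pt Q p ξ (u ξ)), nQ Q⟫ ^ 2 ≤ 4 * κ)
    (h2 : ‖hs W (pt Q p ξ (u ξ))‖ ≤ a) :
    ‖gradient u ξ‖ ^ 2 ≤ 8 * κ ∧ ‖fderiv ℝ (gradient u) ξ‖ ≤ 3 * a := by
  have h3 := slope_of_tilt hW (hu.differentiableAt (by norm_num)) h0
  have ha : 0 ≤ a := (norm_nonneg _).trans h2
  have h4 : ‖gradient u ξ‖ ^ 2 ≤ 8 * κ := by
    have := sq_nonneg ‖gradient u ξ‖
    nlinarith
  refine ⟨h4, ?_⟩
  obtain ⟨σ, hσ, -, -, h5⟩ := graph_geom hW hu h0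
  refine ContinuousLinearMap.opNorm_le_of_re_inner_le (by positivity) fun b c hb hc => ?_
  have hV : 0 < √(1 + ‖gradient u ξ‖ ^ 2) := Real.sqrt_pos.2 (by positivity)
  have hV2 : √(1 + ‖gradient u ξ‖ ^ 2) ^ 2 ≤ 2 := by
    rw [Real.sq_sqrt (by positivity)]; linarith
  have h6 : ∀ b : E2, ‖b‖ = 1 → ‖lin Q (b, ⟪gradient u ξ, b⟫)‖ ≤ √(1 + ‖gradient u ξ‖ ^ 2) := by
    intro b hb
    refine Real.le_sqrt_of_sq_le ?_
    rw [norm_lin_sq, hb, ← sq_abs ⟪gradient u ξ, b⟫]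
    have := abs_real_inner_le_norm (gradient u ξ) b
    rw [hb, mul_one] at this
    have := pow_le_pow_left₀ (abs_nonneg _) this 2
    linarith
  have h7 := abs_real_inner_le_norm (hs W (pt Q p ξ (u ξ)) (lin Q (b, ⟪gradient u ξ, b⟫)))
    (lin Q (c, ⟪gradient u ξ, c⟫))
  have h8 := (hs W (pt Q p ξ (u ξ))).le_of_opNorm_le_of_le h2 (h6 b hb)
  have h9 := mul_le_mul h8 (h6 c hc) (norm_nonneg _) (by positivity)
  have hσ1 : |σ| = 1 := by rcases hσ with rfl | rfl <;> norm_num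
  rw [h5, abs_div, abs_mul, abs_neg, hσ1, one_mul, abs_of_pos hV, div_le_iff₀ hV] at h7
  generalize √(1 + ‖gradient u ξ‖ ^ 2) = V at *
  have b1 : V ≤ 3 / 2 := by nlinarith
  have b2 : V * V * V ≤ 3 := by nlinarith
  have b3 := mul_le_mul_of_nonneg_right h9 hV.le
  have b4 := mul_le_mul_of_nonneg_left b2 ha
  have b5 := le_abs_self ⟪fderiv ℝ (gradient u) ξ b, c⟫
  simp only [RCLike.re_to_real]
  linarith

lemma integral_gauss2 {b : ℝ} (hb : 0 < b) : ∫ v : E2, Real.exp (-b * ‖v‖ ^ 2) = Real.pi / b := by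
  rw [GaussianFourier.integral_rexp_neg_mul_sq_norm hb]
  simp

lemma integrable_gauss2 {b : ℝ} (hb : 0 < b) : Integrable fun v : E2 => Real.exp (-b * ‖v‖ ^ 2) :=
  Integrable.of_integral_ne_zero (by rw [integral_gauss2 hb]; positivity)

lemma gauss_ball {ρ : ℝ} (hρ : 0 < ρ) :
    17 / 19 * (Real.pi * ρ ^ 2) ≤ ∫ v in ball (0 : E2) (6 * ρ), Real.exp (-(ρ ^ 2)⁻¹ * ‖v‖ ^ 2) := by
  have hb : 0 < (ρ ^ 2)⁻¹ := by positivity
  have h1 := integral_add_compl (measurableSet_ball (x := (0 : E2)) (ε := 6 * ρ))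
    (integrable_gauss2 hb)
  have h2 : ∫ v in (ball (0 : E2) (6 * ρ))ᶜ, Real.exp (-(ρ ^ 2)⁻¹ * ‖v‖ ^ 2)
      ≤ ∫ v in (ball (0 : E2) (6 * ρ))ᶜ, 1 / 19 * Real.exp (-((ρ ^ 2)⁻¹ / 2) * ‖v‖ ^ 2) := by
    refine setIntegral_mono_on (integrable_gauss2 hb).integrableOn
      ((integrable_gauss2 (half_pos hb)).const_mul _).integrableOn measurableSet_ball.compl
      fun v hv => ?_
    rw [mem_compl_iff, mem_ball_zero_iff, not_lt] at hv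
    have a1 : 18 ≤ (ρ ^ 2)⁻¹ / 2 * ‖v‖ ^ 2 := by
      have := pow_le_pow_left₀ (by positivity) hv 2
      rw [div_mul_eq_mul_div, le_div_iff₀ (by norm_num), inv_mul_eq_div, le_div_iff₀ (by positivity)]
      linarith
    have a2 := Real.add_one_le_exp ((ρ ^ 2)⁻¹ / 2 * ‖v‖ ^ 2)
    have a3 : Real.exp (-((ρ ^ 2)⁻¹ / 2) * ‖v‖ ^ 2)
        = Real.exp (-(ρ ^ 2)⁻¹ * ‖v‖ ^ 2) * Real.exp ((ρ ^ 2)⁻¹ / 2 * ‖v‖ ^ 2) := by
      rw [← Real.exp_add]; congr 1; ring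
    rw [a3]
    nlinarith [Real.exp_pos (-(ρ ^ 2)⁻¹ * ‖v‖ ^ 2)]
  have h3 : ∫ v in (ball (0 : E2) (6 * ρ))ᶜ, 1 / 19 * Real.exp (-((ρ ^ 2)⁻¹ / 2) * ‖v‖ ^ 2)
      ≤ ∫ v : E2, 1 / 19 * Real.exp (-((ρ ^ 2)⁻¹ / 2) * ‖v‖ ^ 2) :=
    setIntegral_le_integral ((integrable_gauss2 (half_pos hb)).const_mul _)
      (Eventually.of_forall fun v => by positivity)
  rw [integral_const_mul (μ := volume), integral_gauss2 (half_pos hb)] at h3
  rw [integral_gauss2 hb] at h1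
  have e1 : Real.pi / (ρ ^ 2)⁻¹ = Real.pi * ρ ^ 2 := by field_simp
  have e2 : Real.pi / ((ρ ^ 2)⁻¹ / 2) = 2 * (Real.pi * ρ ^ 2) := by field_simp
  linarith

lemma gauss_graph {ρ : ℝ} (hρ : 0 < ρ) {u : E2 → ℝ} (hu : ContDiffOn ℝ 1 u (ball 0 (6 * ρ)))
    (h : ∀ ξ ∈ ball (0 : E2) (6 * ρ), |u ξ| ≤ ρ / 10) :
    ENNReal.ofReal (4 / 5 * (Real.pi * ρ ^ 2)) ≤ ∫⁻ y in (fun ξ => pt Q p ξ (u ξ)) '' ball 0 (6 * ρ),
      ENNReal.ofReal (Real.exp (-‖y - p‖ ^ 2 / (4 * (ρ / 2) ^ 2))) ∂μHE[2] := by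
  have hb : 0 < (ρ ^ 2)⁻¹ := by positivity
  rw [lintegral_graph isOpen_ball hu measurableSet_ball Subset.rfl]
  have h1 := gauss_ball hρ
  have h2 := ofReal_integral_eq_lintegral_ofReal (μ := volume.restrict (ball (0 : E2) (6 * ρ)))
    ((integrable_gauss2 hb).const_mul (99 / 100)).integrableOn
    (Eventually.of_forall fun v => by positivity)
  rw [integral_const_mul] at h2
  have h3 : 0 < Real.pi * ρ ^ 2 := by positivity
  refine (ENNReal.ofReal_le_ofReal (by linarith)).trans (h2.le.trans ?_)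
  refine setLIntegral_mono' measurableSet_ball fun ξ hξ => ?_
  rw [← ENNReal.ofReal_mul (Real.exp_pos _).le]
  refine ENNReal.ofReal_le_ofReal ?_
  have a1 : 1 ≤ √(1 + ‖gradient u ξ‖ ^ 2) := Real.one_le_sqrt.2 (by nlinarith [sq_nonneg ‖gradient u ξ‖])
  have a2 : u ξ ^ 2 ≤ (ρ / 10) ^ 2 := by
    rw [← sq_abs]; exact pow_le_pow_left₀ (abs_nonneg _) (h ξ hξ) 2
  have a3 : Real.exp (-‖pt Q p ξ (u ξ) - p‖ ^ 2 / (4 * (ρ / 2) ^ 2))
      = Real.exp (-(ρ ^ 2)⁻¹ * ‖ξ‖ ^ 2) * Real.exp (-((ρ ^ 2)⁻¹ * u ξ ^ 2)) := by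
    rw [← Real.exp_add, pt_eq, add_sub_cancel_left, norm_lin_sq]
    congr 1
    field_simp
    ring
  have a4 := Real.add_one_le_exp (-((ρ ^ 2)⁻¹ * u ξ ^ 2))
  have a5 : (ρ ^ 2)⁻¹ * u ξ ^ 2 ≤ 1 / 100 := by
    rw [inv_mul_eq_div, div_le_iff₀ (by positivity)]; linarith
  have a6 := Real.exp_pos (-(ρ ^ 2)⁻¹ * ‖ξ‖ ^ 2)
  have a7 := Real.exp_pos (-((ρ ^ 2)⁻¹ * u ξ ^ 2))
  rw [a3]
  have a8 : 99 / 100 ≤ Real.exp (-((ρ ^ 2)⁻¹ * u ξ ^ 2)) * √(1 + ‖gradient u ξ‖ ^ 2) := by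
    nlinarith
  nlinarith

/-- two disjoint flat graphs have Gaussian area at least `8 / 5` -/
theorem gd_two_graphs {ρ : ℝ} (hρ : 0 < ρ) {u v : E2 → ℝ}
    (hu : ContDiffOn ℝ 1 u (ball 0 (6 * ρ))) (hv : ContDiffOn ℝ 1 v (ball 0 (6 * ρ)))
    (h : ∀ ξ ∈ ball (0 : E2) (6 * ρ), |u ξ| ≤ ρ / 10 ∧ |v ξ| ≤ ρ / 10 ∧ u ξ ≠ v ξ ∧
      W (pt Q p ξ (u ξ)) = 0 ∧ W (pt Q p ξ (v ξ)) = 0)
    (hi : Integrable (fun y => Real.exp (-‖y - p‖ ^ 2 / (4 * (ρ / 2) ^ 2))) (ar W)) :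
    8 / 5 ≤ gd (ar W) p (ρ / 2) := by
  have h1 := gauss_graph (Q := Q) (p := p) hρ hu fun ξ hξ => (h ξ hξ).1
  have h2 := gauss_graph (Q := Q) (p := p) hρ hv fun ξ hξ => (h ξ hξ).2.1
  have hm : MeasurableSet ((fun ξ => pt Q p ξ (v ξ)) '' ball 0 (6 * ρ)) :=
    measurableSet_ball.image_of_continuousOn_injOn
      (contDiff_pt.comp_contDiffOn (contDiffOn_id.prodMk hv)).continuousOn fun a _ b _ h => by
        have h' : pt Q p a (v a) = pt Q p b (v b) := h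
        rw [← hor_pt (Q := Q) (p := p) a (v a), h', hor_pt]
  have hd : Disjoint ((fun ξ => pt Q p ξ (u ξ)) '' ball 0 (6 * ρ))
      ((fun ξ => pt Q p ξ (v ξ)) '' ball 0 (6 * ρ)) := by
    rw [Set.disjoint_left]
    rintro _ ⟨a, ha, rfl⟩ ⟨b, -, e⟩
    have e' : pt Q p b (v b) = pt Q p a (u a) := e
    have e1 : b = a := by rw [← hor_pt (Q := Q) (p := p) b (v b), e', hor_pt]
    have e2 : v b = u a := by rw [← inner_pt (Q := Q) (p := p) b (v b), e', inner_pt]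
    exact (h a ha).2.2.1 (by rw [← e2, e1])
  have h3 := add_le_add h1 h2
  have h4 : 0 < Real.pi * ρ ^ 2 := by positivity
  rw [← lintegral_union hm hd, ← ENNReal.ofReal_add (by positivity) (by positivity)] at h3
  have h5 := h3.trans (lintegral_mono_set (t := {x | W x = 0}) (by
    rintro _ (⟨a, ha, rfl⟩ | ⟨a, ha, rfl⟩)
    exacts [(h a ha).2.2.2.1, (h a ha).2.2.2.2]))
  have h6 := ofReal_integral_eq_lintegral_ofReal hi (Eventually.of_forall fun v => by positivity)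
  rw [ar] at h6
  rw [← h6, ENNReal.ofReal_le_ofReal_iff (integral_nonneg fun v => by positivity)] at h5
  rw [gd, le_div_iff₀ (by positivity), ar]
  linarith

end Vale.Agent.P218UG
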